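import Vale.Agent.N323C.Pincus

/-!
# Cantor-Bernstein, partitions, Kinna-Wagner and linear orders in a model of ZF (helper28)
-/

namespace Vale.Agent.N323C

open Vale.Agent.P323.Z

variable {M : Type} [ZM M]

/-- **Cantor-Bernstein** -/
theorem cantor_bernstein {f g X Y : M} (hf : IsInjection E f X Y) (hg : IsInjection E g Y X) :
    ∃ h, IsInjection E h X Y ∧ IsSurjection E h X Y := by
  obtain ⟨C, hC⟩ := sep (fun x => ∀ S, (∀ z, E z X → (∃ y, E (op y z) g) ∨ E z S) →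
    (∀ z y z', E z S → E (op z y) f → E (op y z') g → E z' S) → E x S) X
  have ha : ∀ z, E z X → (∃ y, E (op y z) g) ∨ E z C := fun z hz => by
    by_cases h : ∃ y, E (op y z) g
    · exact Or.inl h
    · exact Or.inr ((hC z).2 ⟨hz, fun S h1 _ => (h1 z hz).resolve_left h⟩)
  have hb : ∀ z y z', E z C → E (op z y) f → E (op y z') g → E z' C := fun z y z' h1 h2 h3 =>
    (hC z').2 ⟨(IsFunction.dom hg.1 h3).2,
      fun S h4 h5 => h5 z y z' (((hC z).1 h1).2 S h4 h5) h2 h3⟩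
  have hc : ∀ y z', E z' C → E (op y z') g → ∃ z, E z C ∧ E (op z y) f := by
    intro y z' h1 h2
    by_contra h
    obtain ⟨S, hS⟩ := sep (fun x => x ≠ z') C
    refine ((hS z').1 (((hC z').1 h1).2 S (fun z hz => ?_) fun z y' w h3 h4 h5 => ?_)).2 rfl
    · by_cases h3 : z = z'
      · exact Or.inl ⟨y, h3 ▸ h2⟩
      · exact (ha z hz).imp id fun h4 => (hS z).2 ⟨h4, h3⟩
    · refine (hS w).2 ⟨hb z y' w ((hS z).1 h3).1 h4 h5, ?_⟩
      rintro rfl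
      exact h ⟨z, ((hS z).1 h3).1, IsInjection.dis hg _ _ _ h5 h2 ▸ h4⟩
  obtain ⟨h, h1, h2⟩ := mkFun
    (fun x y => (E x C ∧ E (op x y) f) ∨ (¬ E x C ∧ E (op y x) g)) X Y
    (fun x hx => by
      by_cases h : E x C
      · obtain ⟨y, hy⟩ := IsFunction.tot hf.1 hx
        exact ⟨y, (IsFunction.dom hf.1 hy).2, Or.inl ⟨h, hy⟩⟩
      · obtain ⟨y, hy⟩ := (ha x hx).resolve_right h
        exact ⟨y, (IsFunction.dom hg.1 hy).1, Or.inr ⟨h, hy⟩⟩)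
    (by
      rintro x y y' - - - (⟨h1, h2⟩ | ⟨h1, h2⟩) (⟨h3, h4⟩ | ⟨h3, h4⟩)
      · exact IsFunction.fn hf.1 h2 h4
      · exact (h3 h1).elim
      · exact (h1 h3).elim
      · exact IsInjection.dis hg _ _ _ h2 h4)
  refine ⟨h, ⟨h1, fun x x' y h3 h4 => ?_⟩, h1, fun y hy => ?_⟩
  · rcases ((h2 _ _).1 (pairMem_iff.1 h3)).2.2 with ⟨h5, h6⟩ | ⟨h5, h6⟩ <;>
      rcases ((h2 _ _).1 (pairMem_iff.1 h4)).2.2 with ⟨h7, h8⟩ | ⟨h7, h8⟩
    · exact IsInjection.dis hf _ _ _ h6 h8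
    · exact (h7 (hb _ _ _ h5 h6 h8)).elim
    · exact (h5 (hb _ _ _ h7 h8 h6)).elim
    · exact IsFunction.fn hg.1 h6 h8
  · obtain ⟨z, hz⟩ := IsFunction.tot hg.1 hy
    have h3 := (IsFunction.dom hg.1 hz).2
    by_cases h : E z C
    · obtain ⟨x, h4, h5⟩ := hc y z h hz
      have h6 := ((hC x).1 h4).1
      exact ⟨x, h6, pairMem_iff.2 ((h2 _ _).2 ⟨h6, hy, Or.inl ⟨h4, h5⟩⟩)⟩
    · exact ⟨z, h3, pairMem_iff.2 ((h2 _ _).2 ⟨h3, hy, Or.inr ⟨h, hz⟩⟩)⟩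

/-- PP for partitions -/
theorem part_of_pp (hPP : PP (E (M := M))) (X P : M) (h1 : ∀ A, E A P → ∃ x, E x A)
    (h2 : ∀ A, E A P → Sub E A X)
    (h3 : ∀ x, E x X → ∃ A, (E A P ∧ E x A) ∧ ∀ B, E B P → E x B → B = A) :
    ∃ j, IsInjection E j P X := by
  obtain ⟨f, hf, hf'⟩ := mkFun (fun x A => E x A) X P (fun x hx => (h3 x hx).imp fun _ h => h.1)
    fun x A B hx h4 h5 h6 h7 => by
      obtain ⟨C, -, h⟩ := h3 x hx
      rw [h A h4 h6, h B h5 h7]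
  refine hPP X P ⟨f, hf, fun A hA => ?_⟩
  obtain ⟨x, hx⟩ := h1 A hA
  exact ⟨x, h2 A hA x hx, pairMem_iff.2 ((hf' _ _).2 ⟨h2 A hA x hx, hA, hx⟩)⟩

/-- AC for indexed families gives AC. -/
theorem ac_of_choice (h : ∀ I : M, Choice E I) : AC (E (M := M)) := by
  intro F hF
  obtain ⟨i, h1, h2⟩ := mkFun (fun x y => x = y) F F (fun x hx => ⟨x, hx, rfl⟩)
    fun _ _ _ _ _ _ h h' => h.symm.trans h'
  obtain ⟨c, V, h3, h4⟩ := h F i F h1 fun A B hA => by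
    obtain ⟨-, h5, -⟩ := (h2 _ _).1 (pairMem_iff.1 hA)
    exact hF B h5
  refine ⟨c, V, h3, fun A x hx => h4 A A x (pairMem_iff.2 ((h2 _ _).2 ?_)) hx⟩
  have := (IsFunction.dom h3 (pairMem_iff.1 hx)).1
  exact ⟨this, this, rfl⟩

/-- A set that injects into a subset of `(η ∖ κ) × P(κ)` injects into `P(η)`. -/
theorem kw_of {A κ η Y j : M} (hκ : Sub E κ η) (hj : IsInjection E j A Y)
    (hY : ∀ p, E p Y → ∃ ξ s, IsOPair E p ξ s ∧ E ξ η ∧ ¬ E ξ κ ∧ Sub E s κ) :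
    ∃ P i, (∀ s, E s P ↔ Sub E s η) ∧ IsInjection E i A P := by
  simp only [isOPair_iff] at hY
  obtain ⟨P, hP⟩ := pow η
  obtain ⟨i, h1, h2⟩ := mkFun
    (fun x t => ∃ ξ s, E (op x (op ξ s)) j ∧ ∀ z, E z t ↔ E z s ∨ z = ξ) A P
    (fun x hx => by
      obtain ⟨p, hp⟩ := IsFunction.tot hj.1 hx
      obtain ⟨ξ, s, rfl, h1, -, h2⟩ := hY p (IsFunction.dom hj.1 hp).2
      obtain ⟨t, ht⟩ := ins ξ s
      refine ⟨t, (hP t).2 fun z hz => ?_, ξ, s, hp, ht⟩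
      rcases (ht z).1 hz with h | rfl
      exacts [hκ z (h2 z h), h1])
    (by
      rintro x t t' - - - ⟨ξ, s, h1, h2⟩ ⟨ξ', s', h3, h4⟩
      obtain ⟨rfl, rfl⟩ := op_inj (IsFunction.fn hj.1 h1 h3)
      exact ext fun z => (h2 z).trans (h4 z).symm)
  refine ⟨P, i, hP, h1, fun x x' t h3 h4 => ?_⟩
  obtain ⟨-, -, ξ, s, h5, h6⟩ := (h2 _ _).1 (pairMem_iff.1 h3)
  obtain ⟨-, -, ξ', s', h5', h6'⟩ := (h2 _ _).1 (pairMem_iff.1 h4)
  obtain ⟨_, _, h, -, h7, h8⟩ := hY _ (IsFunction.dom hj.1 h5).2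
  obtain ⟨rfl, rfl⟩ := op_inj h
  obtain ⟨_, _, h', -, h7', h8'⟩ := hY _ (IsFunction.dom hj.1 h5').2
  obtain ⟨rfl, rfl⟩ := op_inj h'
  obtain rfl : ξ = ξ' := ((h6' ξ).1 ((h6 ξ).2 (Or.inr rfl))).resolve_left fun h => h7 (h8' _ h)
  obtain rfl : s = s' := ext fun z =>
    ⟨fun hz => ((h6' z).1 ((h6 z).2 (Or.inl hz))).resolve_right fun h => h7 (h ▸ h8 z hz),
      fun hz => ((h6 z).1 ((h6' z).2 (Or.inl hz))).resolve_right fun h => h7 (h ▸ h8' z hz)⟩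
  exact IsInjection.dis hj _ _ _ h5 h5'

/-- A set that injects into the power set of an ordinal has a linear order. -/
theorem lin_of {A η P i : M} (hη : Ord E η) (hP : ∀ s, E s P ↔ Sub E s η)
    (hi : IsInjection E i A P) : ∃ R, (∀ x, ¬ PairMem E x x R) ∧
      (∀ x y z, PairMem E x y R → PairMem E y z R → PairMem E x z R) ∧
      ∀ x y, E x A → E y A → PairMem E x y R ∨ x = y ∨ PairMem E y x R := by
  obtain ⟨R, -, hR⟩ := rel (fun x y => ∃ s t ξ, E (op x s) i ∧ E (op y t) i ∧ E ξ t ∧ ¬ E ξ s ∧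
    ∀ ζ, E ζ ξ → (E ζ s ↔ E ζ t)) A A
  have hs : ∀ {x s}, E (op x s) i → Sub E s η := fun h => (hP _).1 (IsFunction.dom hi.1 h).2
  refine ⟨R, ?_⟩
  simp only [pairMem_iff, hR]
  refine ⟨?_, ?_, fun x y hx hy => ?_⟩
  · rintro x ⟨-, -, s, t, ξ, h1, h2, h3, h4, -⟩
    exact h4 (IsFunction.fn hi.1 h1 h2 ▸ h3)
  · rintro x y z ⟨hx, -, s, t, ξ, h1, h2, h3, h4, h5⟩ ⟨-, hz, t', r, ζ, h6, h7, h8, h9, h10⟩
    obtain rfl := IsFunction.fn hi.1 h2 h6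
    rcases hη.2 ξ ζ (hs h2 _ h3) (hs h7 _ h8) with h | rfl | h
    · exact ⟨hx, hz, s, r, ξ, h1, h7, (h10 ξ h).1 h3, h4, fun w hw =>
        (h5 w hw).trans (h10 w ((hη.mem (hs h7 _ h8)).1 ξ h w hw))⟩
    · exact (h9 h3).elim
    · exact ⟨hx, hz, s, r, ζ, h1, h7, h8, fun h' => h9 ((h5 ζ h).1 h'), fun w hw =>
        (h5 w ((hη.mem (hs h2 _ h3)).1 ζ h w hw)).trans (h10 w hw)⟩
  · obtain ⟨s, h1⟩ := IsFunction.tot hi.1 hx
    obtain ⟨t, h2⟩ := IsFunction.tot hi.1 hy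
    by_cases h : ∃ ξ, E ξ η ∧ ¬ (E ξ s ↔ E ξ t)
    · obtain ⟨ξ, h3, h4⟩ := h
      obtain ⟨ζ, h5, h6, h7⟩ := exists_min (fun ξ => ¬ (E ξ s ↔ E ξ t)) h3 h4
      have h8 : ∀ w, E w ζ → (E w s ↔ E w t) := fun w hw =>
        by_contra fun h => h7 w (hη.1 ζ h5 w hw) h hw
      by_cases h9 : E ζ t
      · exact Or.inl ⟨hx, hy, s, t, ζ, h1, h2, h9, fun h => h6 (iff_of_true h h9), h8⟩
      · exact Or.inr (Or.inr ⟨hy, hx, t, s, ζ, h2, h1,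
          by_contra fun h => h6 (iff_of_false h h9), h9, fun w hw => (h8 w hw).symm⟩)
    · simp only [not_exists, not_and, not_not] at h
      obtain rfl : s = t := ext fun z =>
        ⟨fun hz => (h z (hs h1 z hz)).1 hz, fun hz => (h z (hs h2 z hz)).2 hz⟩
      exact Or.inr (Or.inl (IsInjection.dis hi _ _ _ h1 h2))

end Vale.Agent.N323C
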