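import Vale.Agent.N323C.Pincus

/-!
# Choice for well-ordered families implies DC (Jensen), in every model of ZF (helper28)
-/

namespace Vale.Agent.N323C

open Vale.Agent.P323.Z

/-- `m = n ∪ {n}` -/
def Suc {M : Type*} (E : M → M → Prop) (m n : M) : Prop := ∀ z, E z m ↔ E z n ∨ z = n

/-- inductive sets -/
def Ind {M : Type*} (E : M → M → Prop) (w : M) : Prop :=
  (∃ e, E e w ∧ ∀ z, ¬ E z e) ∧ ∀ n, E n w → ∃ m, E m w ∧ Suc E m n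

/-- the least inductive set -/
def Om {M : Type*} (E : M → M → Prop) (w : M) : Prop := Ind E w ∧ ∀ v, Ind E v → Sub E w v

variable {M : Type} [ZM M] {α : Type}

instance Df.suc (t s : (α → M) → M) [Tm t] [Tm s] : Df fun v => Suc E (t v) (s v) :=
  Df.app2 (Suc E) (by unfold Suc; infer_instance) t s

theorem Suc.inj {m n n' : M} (h : Suc E m n) (h' : Suc E m n') : n = n' := by
  rcases (h' n).1 ((h n).2 (Or.inr rfl)) with h1 | h1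
  · rcases (h n').1 ((h' n').2 (Or.inr rfl)) with h2 | h2
    · exact (asym h1 h2).elim
    · exact h2.symm
  · exact h1

theorem Om.ind {w : M} (hw : Om E w) (P : M → Prop) [Df fun v : Fin 1 → M => P (v 0)]
    (h0 : ∀ e, (∀ z, ¬ E z e) → P e) (h1 : ∀ n m, E n w → Suc E m n → P n → P m) :
    ∀ n, E n w → P n := by
  obtain ⟨v, hv⟩ := sep P w
  obtain ⟨⟨e, h2, h3⟩, h4⟩ := hw.1
  refine fun n hn => ((hv n).1 (hw.2 v ⟨⟨e, (hv e).2 ⟨h2, h0 e h3⟩, h3⟩, fun n hn => ?_⟩ n hn)).2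
  obtain ⟨m, h5, h6⟩ := h4 n ((hv n).1 hn).1
  exact ⟨m, (hv m).2 ⟨h5, h1 n m ((hv n).1 hn).1 h6 ((hv n).1 hn).2⟩, h6⟩

/-- recursion on the natural numbers -/
theorem Om.recur {w Z N x : M} (hw : Om E w) (hx : E x Z)
    (h1 : ∀ y, E y Z → ∃ y', E y' Z ∧ E (op y y') N)
    (h2 : ∀ y y' y'', E (op y y') N → E (op y y'') N → y' = y'') :
    ∃ f, (∀ p, E p f → ∃ n y, E n w ∧ E y Z ∧ p = op n y) ∧
      (∀ n, E n w → ∃! y, E (op n y) f) ∧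
      ∀ n m y y', Suc E m n → E (op n y) f → E (op m y') f → E (op y y') N := by
  obtain ⟨f, hf, hf'⟩ := rel (fun n y => ∀ S, (∀ e, (∀ z, ¬ E z e) → E e w → E (op e x) S) →
    (∀ n m y y', Suc E m n → E m w → E y' Z → E (op n y) S → E (op y y') N → E (op m y') S) →
    E (op n y) S) w Z
  have ha : ∀ e, (∀ z, ¬ E z e) → E e w → E (op e x) f := fun e h3 h4 =>
    (hf' _ _).2 ⟨h4, hx, fun S h5 _ => h5 e h3 h4⟩
  have hb : ∀ n m y y', Suc E m n → E m w → E y' Z → E (op n y) f → E (op y y') N →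
      E (op m y') f := fun n m y y' h3 h4 h5 h6 h7 =>
    (hf' _ _).2 ⟨h4, h5, fun S h8 h9 => h9 n m y y' h3 h4 h5 (((hf' _ _).1 h6).2.2 S h8 h9) h7⟩
  have hc : ∀ m y', E (op m y') f → ((∀ z, ¬ E z m) ∧ y' = x) ∨
      ∃ n y, Suc E m n ∧ E (op n y) f ∧ E (op y y') N := by
    intro m y' h
    obtain ⟨S, -, hS⟩ := rel (fun m y' => E (op m y') f ∧ (((∀ z, ¬ E z m) ∧ y' = x) ∨
      ∃ n y, Suc E m n ∧ E (op n y) f ∧ E (op y y') N)) w Z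
    exact ((hS _ _).1 (((hf' _ _).1 h).2.2 S
      (fun e h3 h4 => (hS _ _).2 ⟨h4, hx, ha e h3 h4, Or.inl ⟨h3, rfl⟩⟩)
      fun n m y y' h3 h4 h5 h6 h7 => (hS _ _).2 ⟨h4, h5,
        hb n m y y' h3 h4 h5 ((hS _ _).1 h6).2.2.1 h7,
        Or.inr ⟨n, y, h3, ((hS _ _).1 h6).2.2.1, h7⟩⟩)).2.2.2
  have hd : ∀ n, E n w → ∀ y y', E (op n y) f → E (op n y') f → y = y' := by
    refine hw.ind (fun n => ∀ y y', E (op n y) f → E (op n y') f → y = y')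
      (fun e he y y' h3 h4 => ?_) fun n m _ hm ih y y' h3 h4 => ?_
    · rcases hc _ _ h3 with ⟨-, rfl⟩ | ⟨n, -, h, -⟩
      · rcases hc _ _ h4 with ⟨-, rfl⟩ | ⟨n, -, h, -⟩
        · rfl
        · exact (he n ((h n).2 (Or.inr rfl))).elim
      · exact (he n ((h n).2 (Or.inr rfl))).elim
    · rcases hc _ _ h3 with ⟨h, -⟩ | ⟨n1, z1, h5, h6, h7⟩
      · exact (h n ((hm n).2 (Or.inr rfl))).elim
      · rcases hc _ _ h4 with ⟨h, -⟩ | ⟨n2, z2, h8, h9, h10⟩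
        · exact (h n ((hm n).2 (Or.inr rfl))).elim
        · obtain rfl := hm.inj h5
          obtain rfl := hm.inj h8
          obtain rfl := ih _ _ h6 h9
          exact h2 _ _ _ h7 h10
  have he : ∀ n, E n w → E n w → ∃ y, E (op n y) f := by
    refine hw.ind (fun n => E n w → ∃ y, E (op n y) f) (fun e he h => ⟨x, ha e he h⟩)
      fun n m hn hm ih h => ?_
    obtain ⟨y, hy⟩ := ih hn
    obtain ⟨y', h3, h4⟩ := h1 y ((hf' _ _).1 hy).2.1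
    exact ⟨y', hb n m y y' hm h h3 hy h4⟩
  refine ⟨f, hf, fun n hn => ?_, fun n m y y' h3 h4 h5 => ?_⟩
  · obtain ⟨y, hy⟩ := he n hn hn
    exact ⟨y, hy, fun y' hy' => hd n hn _ _ hy' hy⟩
  · rcases hc _ _ h5 with ⟨h, -⟩ | ⟨n', z, h6, h7, h8⟩
    · exact (h n ((h3 n).2 (Or.inr rfl))).elim
    · obtain rfl := h3.inj h6
      rwa [hd n ((hf' _ _).1 h4).1 _ _ h4 h7]

/-- `H` shows that `x` has `R`-rank at least `β` in a set on whose subsets `s` chooses -/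
abbrev Wit (A R x β H s : M) : Prop := E (op x β) H ∧
  (∀ y δ γ, E (op y δ) H → E γ δ → ∃ y', E (op y y') R ∧ E (op y' γ) H) ∧
  (∀ Z z, E (op Z z) s → E z Z) ∧ (∀ Z z z', E (op Z z) s → E (op Z z') s → z = z') ∧
  ∀ Z y δ, Sub E Z A → E y Z → E (op y δ) H → ∃ z, E (op Z z) s

theorem exists_wit (hC : ∀ η : M, Ord E η → Choice E η) {A R κ Q : M} (hκ : Ord E κ)
    (hR : ∀ x, E x A → ∃ y, E y A ∧ E (op x y) R)
    (hQ : ∀ p, E p Q ↔ ∃ x y, E x A ∧ E y κ ∧ p = op x y) :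
    ∀ β, E β κ → ∀ x, E x A → ∃ H s, Sub E H Q ∧ Wit A R x β H s := by
  obtain ⟨PA, hPA⟩ := pow A
  obtain ⟨Q', hQ'⟩ := prod PA A
  obtain ⟨PH, hPH⟩ := pow Q
  obtain ⟨PS, hPS⟩ := pow Q'
  obtain ⟨B, hB⟩ := prod PH PS
  obtain ⟨U, hU⟩ := pow B
  suffices h : ∀ β, E β κ → ∀ x, E x A → ∃ H s, Sub E H Q ∧ Sub E s Q' ∧ Wit A R x β H s from
    fun β hβ x hx => by
      obtain ⟨H, s, h1, -, h2⟩ := h β hβ x hx
      exact ⟨H, s, h1, h2⟩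
  refine ind (fun β => ∀ x, E x A → ∃ H s, Sub E H Q ∧ Sub E s Q' ∧ Wit A R x β H s) hκ.1
    fun β hβ ih x hx => ?_
  obtain ⟨y, hy, hxy⟩ := hR x hx
  obtain ⟨F, hF, hF'⟩ := mkFun (fun γ t => ∀ p, E p t ↔ E p B ∧
      ∃ H s, p = op H s ∧ Wit A R y γ H s) β U
    (fun γ _ => by
      obtain ⟨t, ht⟩ := sep (fun p => ∃ H s, p = op H s ∧ Wit A R y γ H s) B
      exact ⟨t, (hU t).2 fun p hp => ((ht p).1 hp).1, ht⟩)
    fun _ _ _ _ _ _ h h' => ext fun p => (h p).trans (h' p).symm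
  obtain ⟨c, V, hc, hc'⟩ := hC β (hκ.mem hβ) F U hF fun γ t h => by
    obtain ⟨h1, -, h2⟩ := (hF' _ _).1 (pairMem_iff.1 h)
    obtain ⟨H, s, h3, h4, h5⟩ := ih γ h1 y hy
    exact ⟨op H s, (h2 _).2 ⟨(hB _).2 ⟨H, s, (hPH H).2 h3, (hPS s).2 h4, rfl⟩, H, s, rfl, h5⟩⟩
  simp only [pairMem_iff] at hc'
  have h1 : ∀ γ p, E (op γ p) c → E p B ∧ ∃ H s, p = op H s ∧ Wit A R y γ H s := fun γ p h => by
    obtain ⟨t, ht⟩ := IsFunction.tot hF (IsFunction.dom hc h).1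
    exact (((hF' _ _).1 ht).2.2 p).1 (hc' γ t p ht h)
  have h2 : ∀ γ H s, E (op γ (op H s)) c → Sub E H Q ∧ Sub E s Q' ∧ Wit A R y γ H s := by
    intro γ H s h
    obtain ⟨h3, H', s', h4, h5⟩ := h1 γ _ h
    obtain ⟨rfl, rfl⟩ := op_inj h4
    obtain ⟨H', s', h6, h7, h8⟩ := (hB _).1 h3
    obtain ⟨rfl, rfl⟩ := op_inj h8
    exact ⟨(hPH _).1 h6, (hPS _).1 h7, h5⟩
  obtain ⟨H, hH, hH'⟩ := rel (fun z δ => (z = x ∧ δ = β) ∨
    ∃ γ H s, E (op γ (op H s)) c ∧ E (op z δ) H) A κ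
  obtain ⟨s, hs, hs'⟩ := rel (fun Z z => (E x Z ∧ z = x) ∨ (¬ E x Z ∧ ∃ γ H s,
    E (op γ (op H s)) c ∧ E (op Z z) s ∧
      ∀ γ' H' s' z', E γ' γ → E (op γ' (op H' s')) c → ¬ E (op Z z') s')) PA A
  have h3 : ∀ γ H' s' z δ, E (op γ (op H' s')) c → E (op z δ) H' → E (op z δ) H := by
    intro γ H' s' z δ h4 h5
    obtain ⟨z', δ', h6, h7, h8⟩ := (hQ _).1 ((h2 γ H' s' h4).1 _ h5)
    obtain ⟨rfl, rfl⟩ := op_inj h8
    exact (hH' _ _).2 ⟨h6, h7, Or.inr ⟨γ, H', s', h4, h5⟩⟩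
  refine ⟨H, s, fun p hp => (hQ p).2 (hH p hp), fun p hp => (hQ' p).2 (hs p hp),
    (hH' _ _).2 ⟨hx, hβ, Or.inl ⟨rfl, rfl⟩⟩, fun z δ γ h4 h5 => ?_, fun Z z h4 => ?_,
    fun Z z z' h4 h5 => ?_, fun Z z δ h4 h5 h6 => ?_⟩
  · rcases ((hH' _ _).1 h4).2.2 with ⟨rfl, rfl⟩ | ⟨γ', H', s', h6, h7⟩
    · obtain ⟨p, hp⟩ := IsFunction.tot hc h5
      obtain ⟨-, H', s', rfl, h6⟩ := h1 γ p hp
      exact ⟨y, hxy, h3 γ H' s' y γ hp h6.1⟩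
    · obtain ⟨y', h8, h9⟩ := (h2 _ _ _ h6).2.2.2.1 z δ γ h7 h5
      exact ⟨y', h8, h3 _ _ _ _ _ h6 h9⟩
  · rcases ((hs' _ _).1 h4).2.2 with ⟨h5, rfl⟩ | ⟨-, γ, H', s', h5, h6, -⟩
    · exact h5
    · exact (h2 _ _ _ h5).2.2.2.2.1 Z z h6
  · rcases ((hs' _ _).1 h4).2.2 with ⟨h6, rfl⟩ | ⟨h6, γ, H', s', h7, h8, h9⟩ <;>
      rcases ((hs' _ _).1 h5).2.2 with ⟨h6', rfl⟩ | ⟨h6', γ', H'', s'', h7', h8', h9'⟩
    · rfl
    · exact (h6' h6).elim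
    · exact (h6 h6').elim
    · rcases (hκ.mem hβ).2 γ γ' (IsFunction.dom hc h7).1 (IsFunction.dom hc h7').1 with
        h | rfl | h
      · exact (h9' _ _ _ _ h h7 h8).elim
      · obtain ⟨rfl, rfl⟩ := op_inj (IsFunction.fn hc h7 h7')
        exact (h2 _ _ _ h7).2.2.2.2.2.1 Z z z' h8 h8'
      · exact (h9 _ _ _ _ h h7' h8').elim
  · by_cases h7 : E x Z
    · exact ⟨x, (hs' _ _).2 ⟨(hPA Z).2 h4, hx, Or.inl ⟨h7, rfl⟩⟩⟩
    · rcases ((hH' _ _).1 h6).2.2 with ⟨rfl, -⟩ | ⟨γ, H', s', h8, h9⟩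
      · exact (h7 h5).elim
      · obtain ⟨z', hz'⟩ := (h2 _ _ _ h8).2.2.2.2.2.2 Z z δ h4 h5 h9
        obtain ⟨γ', -, ⟨H'', s'', z'', h10, h11⟩, h12⟩ := exists_min
          (fun γ => ∃ H s z, E (op γ (op H s)) c ∧ E (op Z z) s) (IsFunction.dom hc h8).1
          ⟨H', s', z', h8, hz'⟩
        exact ⟨z'', (hs' _ _).2 ⟨(hPA Z).2 h4, h4 _ ((h2 _ _ _ h10).2.2.2.2.1 Z z'' h11),
          Or.inr ⟨h7, γ', H'', s'', h10, h11, fun ζ K t v h13 h14 h15 =>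
            h12 ζ (IsFunction.dom hc h14).1 ⟨K, t, v, h14, h15⟩ h13⟩⟩⟩

theorem Ord.suc {x a : M} (hx : Ord E x) (ha : Suc E a x) : Ord E a :=
  ord_of_mem (fun y hy z hz => (ha z).2 (Or.inl (by
    rcases (ha y).1 hy with h | rfl
    · exact hx.1 y h z hz
    · exact hz))) fun y hy => by
    rcases (ha y).1 hy with h | rfl
    · exact hx.mem h
    · exact hx

/-- **Jensen**: choice for well-ordered families implies DC. -/
theorem dc_of_choice (hC : ∀ η : M, Ord E η → Choice E η) (w A R : M) (hw : Om E w)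
    (hA : ∃ x, E x A) (hR : ∀ x, E x A → ∃ y, E y A ∧ PairMem E x y R) :
    ∃ f, IsFunction E f w A ∧
      ∀ n m x y, Suc E m n → PairMem E n x f → PairMem E m y f → PairMem E x y R := by
  simp only [pairMem_iff] at hR ⊢
  obtain ⟨x, hx⟩ := hA
  obtain ⟨κ, hκ, h⟩ := lindenbaum A
  obtain ⟨κ', hκ'⟩ := ins κ κ
  obtain ⟨Q, hQ⟩ := prod A κ'
  obtain ⟨H, s, h1, h2, h3, h4, h5, h6⟩ :=
    exists_wit hC (hκ.suc hκ') hR hQ κ ((hκ' κ).2 (Or.inr rfl)) x hx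
  obtain ⟨j, -, hj⟩ := rel (fun δ y => E (op y δ) H ∧ ∀ β, E (op y β) H → ¬ E δ β) κ A
  obtain ⟨δ, h7, h8⟩ : ∃ δ, E δ κ ∧ ∀ y, E y A → ¬ E (op δ y) j := by
    by_contra hc
    simp only [not_exists, not_and, not_forall, not_not, exists_prop] at hc
    refine h ⟨j, fun δ δ' y h7 h8 => ?_, hc⟩
    obtain ⟨h9, -, h10, h11⟩ := (hj _ _).1 h7
    obtain ⟨h9', -, h10', h11'⟩ := (hj _ _).1 h8
    rcases hκ.2 δ δ' h9 h9' with h12 | h12 | h12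
    exacts [(h11 _ h10' h12).elim, h12, (h11' _ h10 h12).elim]
  obtain ⟨Z, hZ⟩ := sep (fun y => ∃ β, E δ β ∧ E (op y β) H) A
  obtain ⟨N, -, hN⟩ := rel
    (fun y y' => ∃ t, (∀ z, E z t ↔ E z Z ∧ E (op y z) R) ∧ E (op t y') s) Z Z
  obtain ⟨f, h9, h10, h11⟩ := hw.recur (N := N) ((hZ x).2 ⟨hx, κ, h7, h2⟩)
    (fun y hy => by
      obtain ⟨-, β, h9, h10⟩ := (hZ y).1 hy
      obtain ⟨y', h11, h12⟩ := h3 y β δ h10 h9
      obtain ⟨_, _, h13, -, h14⟩ := (hQ _).1 (h1 _ h12)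
      obtain ⟨rfl, -⟩ := op_inj h14
      have h15 : E y' Z := (hZ y').2 ⟨h13, by
        by_contra hc
        exact h8 y' h13 ((hj _ _).2 ⟨h7, h13, h12, fun β h16 h17 => hc ⟨β, h17, h16⟩⟩)⟩
      obtain ⟨t, ht⟩ := sep (fun z => E (op y z) R) Z
      obtain ⟨z, hz⟩ := h6 t y' δ (fun z hz => ((hZ z).1 ((ht z).1 hz).1).1)
        ((ht y').2 ⟨h15, h11⟩) h12
      have h16 := ((ht z).1 (h4 t z hz)).1
      exact ⟨z, h16, (hN _ _).2 ⟨hy, h16, t, ht, hz⟩⟩)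
    (fun y y' y'' h9 h10 => by
      obtain ⟨-, -, t, h11, h12⟩ := (hN _ _).1 h9
      obtain ⟨-, -, t', h13, h14⟩ := (hN _ _).1 h10
      obtain rfl : t = t' := ext fun z => (h11 z).trans (h13 z).symm
      exact h5 t _ _ h12 h14)
  refine ⟨f, ⟨fun p hp => ?_, fun n hn => ?_⟩, fun n m y y' h12 h13 h14 => ?_⟩
  · obtain ⟨n, y, h12, h13, h14⟩ := h9 p hp
    exact ⟨n, y, h12, ((hZ y).1 h13).1, isOPair_iff.2 h14⟩
  · simpa only [pairMem_iff] using h10 n hn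
  · obtain ⟨-, -, t, h15, h16⟩ := (hN _ _).1 (h11 n m y y' h12 h13 h14)
    exact ((h15 _).1 (h4 _ _ h16)).2

end Vale.Agent.N323C
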