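import Vale.Agent.P323.Z.Model
import Mathlib.ModelTheory.Satisfiability

/-! ZF and some principles as a theory and sentences of first-order logic in the sense of Mathlib.
`LSet` is the language with one binary relation symbol. Variables are numbers: below `k`
quantifiers the variables are `0, …, k - 1`, and the next quantifier binds the variable `k`. -/

namespace Vale.Agent.N323C.S

open FirstOrder FirstOrder.Language Vale.Agent.P323.Z

/-- `φ k` is the formula as it stands below `k` quantifiers; `φ 0` is a sentence. -/
def F : Type := ∀ k : ℕ, LSet.BoundedFormula Empty k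

/-- `x ∈ y` -/
def mem (x y : ℕ) : F := fun k => if h : x < k ∧ y < k then
  Relations.boundedFormula₂ MemSymb.mem (&⟨x, h.1⟩) (&⟨y, h.2⟩) else ⊥

/-- `x = y` -/
def eq (x y : ℕ) : F := fun k => if h : x < k ∧ y < k then &⟨x, h.1⟩ =' &⟨y, h.2⟩ else ⊥

/-- `φ` with the variable `r i` in its place `i` -/
def inst {m : ℕ} (φ : LSet.Formula (Fin m)) (r : Fin m → ℕ) : F := fun k =>
  if h : ∀ i, r i < k then BoundedFormula.relabel (fun i => Sum.inr ⟨r i, h i⟩) φ else ⊥

/-- negation -/
def F.not (φ : F) : F := fun k => ∼(φ k)
/-- conjunction -/
def F.and (φ ψ : F) : F := fun k => φ k ⊓ ψ k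
/-- disjunction -/
def F.or (φ ψ : F) : F := fun k => φ k ⊔ ψ k
/-- implication -/
def F.imp (φ ψ : F) : F := fun k => φ k ⟹ ψ k
/-- equivalence -/
def F.iff (φ ψ : F) : F := fun k => φ k ⇔ ψ k
/-- `∀ x, φ x` -/
def all (φ : ℕ → F) : F := fun k => ∀' φ k (k + 1)
/-- `∃ x, φ x` -/
def ex (φ : ℕ → F) : F := fun k => ∃' φ k (k + 1)

/-- `x ⊆ y` -/
def sub (x y : ℕ) : F := all fun z => (mem z x).imp (mem z y)
/-- `m = n ∪ {n}` -/
def suc (m n : ℕ) : F := all fun z => (mem z m).iff ((mem z n).or (eq z n))
/-- `w` contains the empty set and is closed under successor -/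
def ind (w : ℕ) : F := (ex fun e => (mem e w).and (all fun z => (mem z e).not)).and
  (all fun n => (mem n w).imp (ex fun m => (mem m w).and (suc m n)))
/-- `p = {x, y}` -/
def upair (p x y : ℕ) : F := all fun z => (mem z p).iff ((eq z x).or (eq z y))

/-! ### The axioms of ZF -/

/-- Extensionality -/
def ext : F := all fun x => all fun y => (all fun z => (mem z x).iff (mem z y)).imp (eq x y)
/-- Foundation -/
def fnd : F := all fun x => (ex fun y => mem y x).imp
  (ex fun y => (mem y x).and (all fun z => (mem z x).imp (mem z y).not))
/-- Pairing -/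
def pair : F := all fun x => all fun y => ex fun p => upair p x y
/-- Union -/
def uni : F := all fun x => ex fun u => all fun z =>
  (mem z u).iff (ex fun y => (mem y x).and (mem z y))
/-- Power set -/
def pow : F := all fun x => ex fun p => all fun z => (mem z p).iff (sub z x)
/-- Infinity -/
def inf : F := ex ind
/-- Separation for `φ` with the parameters `0, …, n - 1` -/
def sep {n : ℕ} (φ : LSet.Formula (Fin (n + 1))) : F := all fun a => ex fun b => all fun x =>
  (mem x b).iff ((mem x a).and (inst φ (Fin.snoc Fin.val x)))
/-- Replacement for `φ` with the parameters `0, …, n - 1` -/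
def rep {n : ℕ} (φ : LSet.Formula (Fin (n + 2))) : F := all fun a =>
  (all fun x => (mem x a).imp (ex fun y => (inst φ (Fin.snoc (Fin.snoc Fin.val x) y)).and
    (all fun z => (inst φ (Fin.snoc (Fin.snoc Fin.val x) z)).imp (eq z y)))).imp
  (ex fun b => all fun y => (mem y b).iff
    (ex fun x => (mem x a).and (inst φ (Fin.snoc (Fin.snoc Fin.val x) y))))

/-- The axioms of ZF; the instances of the schemes are universally closed. -/
def ZF : LSet.Theory :=
  {ext 0, fnd 0, pair 0, uni 0, pow 0, inf 0} ∪ {ψ | ∃ n φ, ψ = (sep (n := n) φ n).alls} ∪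
    {ψ | ∃ n φ, ψ = (rep (n := n) φ n).alls}

/-! ### Pairs, functions, ordinals -/

/-- `p = (x, y) = {{x}, {x, y}}` -/
def opair (p x y : ℕ) : F :=
  ex fun s => ex fun t => (upair s x x).and ((upair t x y).and (upair p s t))
/-- `(x, y) ∈ f` -/
def ap (f x y : ℕ) : F := ex fun p => (opair p x y).and (mem p f)
/-- `f` is a function from `X` to `Y` -/
def func (f X Y : ℕ) : F :=
  (all fun p => (mem p f).imp
    (ex fun x => ex fun y => (mem x X).and ((mem y Y).and (opair p x y)))).and
  (all fun x => (mem x X).imp (ex fun y => (ap f x y).and (all fun z => (ap f x z).imp (eq z y))))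
/-- `f` maps `X` onto `Y` -/
def surj (f X Y : ℕ) : F := (func f X Y).and
  (all fun y => (mem y Y).imp (ex fun x => (mem x X).and (ap f x y)))
/-- `f` maps `X` one-to-one into `Y` -/
def inj (f X Y : ℕ) : F := (func f X Y).and
  (all fun x => all fun x' => all fun y => (ap f x y).imp ((ap f x' y).imp (eq x x')))
/-- `a` is an ordinal: transitive and linearly ordered by `∈` -/
def ord (a : ℕ) : F := (all fun x => (mem x a).imp (sub x a)).and (all fun x => all fun y =>
  (mem x a).imp ((mem y a).imp ((mem x y).or ((eq x y).or (mem y x)))))
/-- `w = ω` -/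
def omega (w : ℕ) : F := (ind w).and (all fun v => (ind v).imp (sub w v))

/-! ### The principles -/

/-- PP: if `X` is mapped onto `Y`, then `Y` is mapped one-to-one into `X`. -/
def pp : F := all fun X => all fun Y => (ex fun f => surj f X Y).imp (ex fun j => inj j Y X)
/-- Each family `(A i)` of nonempty sets, `i ∈ I`, has a function `c` with `c(i) ∈ A i`. -/
def choice (I : ℕ) : F := all fun A => all fun U => (func A I U).imp
  ((all fun i => all fun y => (ap A i y).imp (ex fun x => mem x y)).imp
    (ex fun c => ex fun V => (func c I V).and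
      (all fun i => all fun y => all fun x => (ap A i y).imp ((ap c i x).imp (mem x y)))))
/-- AC -/
def ac : F := all choice
/-- AC for families indexed by an ordinal -/
def acwo : F := all fun η => (ord η).imp (choice η)
/-- PP for partitions: a partition `P` of `X` into nonempty pieces injects into `X`. -/
def part : F := all fun X => all fun P =>
  (all fun A => (mem A P).imp ((ex fun x => mem x A).and (sub A X))).imp
    ((all fun x => (mem x X).imp (ex fun A => ((mem A P).and (mem x A)).and
      (all fun B => (mem B P).imp ((mem x B).imp (eq B A))))).imp (ex fun j => inj j P X))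
/-- DC: if `A` is nonempty and each `x ∈ A` has some `y ∈ A` with `x R y`, there is `f : ω → A`
with `f(n) R f(n + 1)` for all `n`. -/
def dc : F := all fun w => all fun A => all fun R => (omega w).imp ((ex fun x => mem x A).imp
  ((all fun x => (mem x A).imp (ex fun y => (mem y A).and (ap R x y))).imp
    (ex fun f => (func f w A).and (all fun n => all fun m => all fun x => all fun y =>
      (suc m n).imp ((ap f n x).imp ((ap f m y).imp (ap R x y)))))))
/-- dual Cantor-Schröder-Bernstein: sets mapped onto each other have a bijection -/
def csb : F := all fun X => all fun Y => (ex fun f => surj f X Y).imp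
  ((ex fun g => surj g Y X).imp (ex fun h => (inj h X Y).and (surj h X Y)))
/-- There is an ordinal `κ` such that each set injects into a subset of `η × P(κ)` for some
ordinal `η`. -/
def svc : F := ex fun κ => (ord κ).and (all fun A => ex fun η => ex fun Y => ex fun j =>
  (ord η).and ((inj j A Y).and (all fun p => (mem p Y).imp
    (ex fun ξ => ex fun s => (opair p ξ s).and ((mem ξ η).and (sub s κ))))))
/-- Kinna-Wagner principle: each set injects into the power set of an ordinal. -/
def kw : F := all fun A => ex fun η => ex fun P => ex fun j =>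
  (ord η).and ((all fun s => (mem s P).iff (sub s η)).and (inj j A P))
/-- Each set has a strict linear order. -/
def lin : F := all fun A => ex fun R => (all fun x => (ap R x x).not).and
  ((all fun x => all fun y => all fun z => (ap R x y).imp ((ap R y z).imp (ap R x z))).and
    (all fun x => all fun y =>
      (mem x A).imp ((mem y A).imp ((ap R x y).or ((eq x y).or (ap R y x))))))

/-- ZF, PP, not AC, and the further principles -/
def Th : LSet.Theory :=
  ZF ∪ {pp 0, ac.not 0, acwo 0, part 0, dc 0, csb 0, svc 0, kw 0, lin 0}

end Vale.Agent.N323C.S
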