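import Vale.Agent.P323.F.End
import Vale.Agent.P323.Z.Sentences

/-!
# Definable predicates of a model of ZF; Separation and Replacement for them (helper28)
-/

namespace Vale.Agent.N323C

open Vale.Agent.P323.Z

/-- A model of ZF. -/
class ZM (M : Type) where
  E : M → M → Prop
  zf : IsZFModel E

export ZM (E)

variable {M : Type} [ZM M] {α β : Type}

theorem ne_M : Nonempty M := by
  obtain ⟨w, -⟩ := (ZM.zf (M := M)).infinity
  exact ⟨w⟩

/-- predicates definable with parameters -/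
class Df (P : (α → M) → Prop) : Prop where
  out : ∃ (n : ℕ) (φ : Fml n) (s : Fin n → α ⊕ M),
    ∀ v, P v ↔ φ.Sat E fun i => Sum.elim v id (s i)

theorem Df.ren (P : (α → M) → Prop) [h : Df P] (ρ : α → β) :
    Df fun v : β → M => P fun a => v (ρ a) := by
  obtain ⟨n, φ, s, hs⟩ := h.out
  refine ⟨n, φ, fun i => Sum.map ρ id (s i), fun v => (hs _).trans (iff_of_eq ?_)⟩
  congr 1
  funext i
  beta_reduce
  cases s i <;> rfl

theorem Df.congr {P Q : (α → M) → Prop} (h : Df P) (e : ∀ v, Q v ↔ P v) : Df Q := by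
  obtain ⟨n, φ, s, hs⟩ := h.out
  exact ⟨n, φ, s, fun v => (e v).trans (hs v)⟩

instance Df.imp (P Q : (α → M) → Prop) [h : Df P] [h' : Df Q] : Df fun v => P v → Q v := by
  obtain ⟨n, φ, s, hs⟩ := h.out
  obtain ⟨m, ψ, t, ht⟩ := h'.out
  refine ⟨n + m, .imp (φ.rename (Fin.castAdd m)) (ψ.rename (Fin.natAdd n)), Fin.append s t,
    fun v => ?_⟩
  rw [Fml.sat_imp, Fml.sat_rename, Fml.sat_rename, hs, ht]
  simp only [Function.comp_def, Fin.append_left, Fin.append_right]

instance Df.bot : Df fun _ : α → M => False := ⟨0, .bot, Fin.elim0, fun _ => Iff.rfl⟩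

instance Df.all (Q : (α → M) → M → Prop)
    [h : Df fun w : Option α → M => Q (fun a => w (some a)) (w none)] :
    Df fun v => ∀ x, Q v x := by
  obtain ⟨n, φ, s, hs⟩ := h.out
  obtain ⟨c⟩ := ne_M (M := M)
  let r : Fin n → Fin (n + 1) := fun i => match s i with
    | .inl none => Fin.last n
    | _ => i.castSucc
  let s' : Fin n → α ⊕ M := fun i => match s i with
    | .inl none => .inr c
    | .inl (some a) => .inl a
    | .inr b => .inr b
  refine ⟨n, .all (φ.rename r), s', fun v => forall_congr' fun x => ?_⟩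
  rw [Fml.sat_rename]
  refine (hs fun o => o.elim x v).trans (iff_of_eq ?_)
  congr 1
  funext i
  simp only [Function.comp, r]
  rcases h : s i with (_ | a) | b <;> simp [s', h]

instance Df.not (P : (α → M) → Prop) [Df P] : Df fun v => ¬ P v :=
  Df.imp P fun _ => False

instance Df.and (P Q : (α → M) → Prop) [Df P] [Df Q] : Df fun v => P v ∧ Q v :=
  Df.congr (P := fun v => ¬ (P v → ¬ Q v)) inferInstance fun v => by tauto

instance Df.or (P Q : (α → M) → Prop) [Df P] [Df Q] : Df fun v => P v ∨ Q v :=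
  Df.congr (P := fun v => ¬ P v → Q v) inferInstance fun v => by tauto

instance Df.iff (P Q : (α → M) → Prop) [Df P] [Df Q] : Df fun v => P v ↔ Q v :=
  Df.congr (P := fun v => (P v → Q v) ∧ (Q v → P v)) inferInstance fun v => by tauto

instance Df.ex (Q : (α → M) → M → Prop)
    [Df fun w : Option α → M => Q (fun a => w (some a)) (w none)] : Df fun v => ∃ x, Q v x :=
  Df.congr (P := fun v => ¬ ∀ x, ¬ Q v x) inferInstance fun v => by simp

/-- definable functions -/
class Tm (t : (α → M) → M) : Prop where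
  out : Df fun w : Option α → M => w none = t fun a => w (some a)

instance Tm.var (i : α) : Tm fun v : α → M => v i :=
  ⟨⟨2, .eq 0 1, ![.inl none, .inl (some i)], fun _ => Iff.rfl⟩⟩

instance Tm.const (c : M) : Tm fun _ : α → M => c :=
  ⟨⟨2, .eq 0 1, ![.inl none, .inr c], fun _ => Iff.rfl⟩⟩

theorem Tm.ren (t : (α → M) → M) [h : Tm t] (ρ : α → β) :
    Tm fun v : β → M => t fun a => v (ρ a) :=
  ⟨@Df.ren M _ _ _ _ h.out (Option.map ρ)⟩

theorem Df.subst (Q : (α → M) → M → Prop) (t : (α → M) → M) [h : Tm t]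
    (h' : Df fun w : Option α → M => Q (fun a => w (some a)) (w none)) :
    Df fun v => Q v (t v) :=
  have := h.out
  Df.congr (P := fun v => ∃ x, x = t v ∧ Q v x) inferInstance fun v => by simp

theorem Df.app1 (R : M → Prop) (h : Df fun u : Fin 1 → M => R (u 0)) (t : (α → M) → M) [Tm t] :
    Df fun v => R (t v) :=
  Df.subst (fun _ x => R x) t (Df.ren (fun u : Fin 1 → M => R (u 0)) fun _ => none)

theorem Df.app2 (R : M → M → Prop) (h : Df fun u : Fin 2 → M => R (u 0) (u 1))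
    (t s : (α → M) → M) [Tm t] [Tm s] : Df fun v => R (t v) (s v) :=
  have := Tm.ren s some
  Df.subst (fun v x => R x (s v)) t (Df.subst (fun w y => R (w none) y) _
    (Df.ren (fun u : Fin 2 → M => R (u 0) (u 1)) ![some none, none]))

theorem Df.app3 (R : M → M → M → Prop) (h : Df fun u : Fin 3 → M => R (u 0) (u 1) (u 2))
    (t s r : (α → M) → M) [Tm t] [Tm s] [Tm r] : Df fun v => R (t v) (s v) (r v) :=
  have := Tm.ren s some
  have := Tm.ren r fun a => some (some a)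
  Df.subst (fun v x => R x (s v) (r v)) t
    (Df.subst (fun w y => R (w none) y (r fun a => w (some a))) _
      (Df.subst (fun w z => R (w (some none)) (w none) z) (fun w => r fun a => w (some (some a)))
        (Df.ren (fun u : Fin 3 → M => R (u 0) (u 1) (u 2)) ![some (some none), some none, none])))

instance Df.mem (t s : (α → M) → M) [Tm t] [Tm s] : Df fun v => E (t v) (s v) :=
  Df.app2 E ⟨2, .mem 0 1, Sum.inl, fun _ => Iff.rfl⟩ t s

instance Df.eq (t s : (α → M) → M) [Tm t] [Tm s] : Df fun v => t v = s v :=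
  Df.app2 Eq ⟨2, .eq 0 1, Sum.inl, fun _ => Iff.rfl⟩ t s

theorem Df.toFml {k : ℕ} (P : (Fin k → M) → Prop) [h : Df P] :
    ∃ (n : ℕ) (φ : LSet.BoundedFormula Empty (n + k)) (c : Fin n → M),
      ∀ w, P w ↔ Sat E φ (Fin.append c w) := by
  obtain ⟨n, φ, s, hs⟩ := h.out
  obtain ⟨c⟩ := ne_M (M := M)
  obtain ⟨ψ, hψ⟩ := P323.F.ofBF_surjective
    (φ.rename fun i => Sum.elim (Fin.natAdd n) (fun _ => Fin.castAdd k i) (s i))
  refine ⟨n, ψ, fun i => Sum.elim (fun _ => c) id (s i), fun w => ?_⟩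
  rw [← Fml.sat_ofBF, hψ, Fml.sat_rename, hs]
  refine iff_of_eq ?_
  congr 1
  funext i
  rcases h : s i with a | b <;> simp [h]

theorem ext {x y : M} (h : ∀ z, E z x ↔ E z y) : x = y := ZM.zf.extensionality x y h

/-- Separation -/
theorem sep (P : M → Prop) [Df fun v : Fin 1 → M => P (v 0)] (a : M) :
    ∃ b, ∀ x, E x b ↔ E x a ∧ P x := by
  obtain ⟨n, φ, c, h⟩ := Df.toFml fun v : Fin 1 → M => P (v 0)
  obtain ⟨b, hb⟩ := ZM.zf.separation n φ c a
  refine ⟨b, fun x => (hb x).trans (and_congr_right fun _ => ?_)⟩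
  refine Iff.trans (iff_of_eq ?_) (h ![x]).symm
  rw [Fin.append_right_eq_snoc]
  rfl

/-- Replacement for a relation with at most one value -/
theorem rep (R : M → M → Prop) [Df fun v : Fin 2 → M => R (v 0) (v 1)] (a : M)
    (hR : ∀ x, E x a → ∀ y y', R x y → R x y' → y = y') :
    ∃ b, ∀ y, E y b ↔ ∃ x, E x a ∧ R x y := by
  have := fun (t s : (Option (Fin 1) → M) → M) [Tm t] [Tm s] => Df.app2 R inferInstance t s
  obtain ⟨a', ha'⟩ := sep (fun x => ∃ y, R x y) a
  obtain ⟨n, φ, c, h⟩ := Df.toFml fun v : Fin 2 → M => R (v 0) (v 1)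
  have h1 : ∀ x y, Sat E φ (Fin.snoc (Fin.snoc c x : Fin (n + 1) → M) y) ↔ R x y := by
    intro x y
    refine Iff.trans (iff_of_eq ?_) (h ![x, y]).symm
    congr 1
    funext i
    refine Fin.lastCases ?_ (fun j => ?_) i
    · exact (Fin.snoc_last ..).trans (Fin.append_right c ![x, y] 1).symm
    · refine (Fin.snoc_castSucc ..).trans (Fin.lastCases ?_ (fun l => ?_) j)
      · exact (Fin.snoc_last ..).trans (Fin.append_right c ![x, y] 0).symm
      · exact (Fin.snoc_castSucc ..).trans (Fin.append_left c ![x, y] l).symm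
  have h2 := ZM.zf.replacement n φ c a'
  simp only [h1] at h2
  obtain ⟨b, hb⟩ := h2 fun x hx => by
    obtain ⟨hx, y, hy⟩ := (ha' x).1 hx
    exact ⟨y, hy, fun y' hy' => hR x hx _ _ hy' hy⟩
  exact ⟨b, fun y => (hb y).trans ⟨fun ⟨x, h3, h4⟩ => ⟨x, ((ha' x).1 h3).1, h4⟩,
    fun ⟨x, h3, h4⟩ => ⟨x, (ha' x).2 ⟨h3, y, h4⟩, h4⟩⟩⟩

/-! ### Ordered pairs -/

theorem upair_unique {p q a b : M} (hp : IsUPair E p a b) (hq : IsUPair E q a b) : p = q :=
  ext fun z => (hp z).trans (hq z).symm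

theorem exists_opair (x y : M) : ∃ p, IsOPair E p x y := by
  obtain ⟨s, hs⟩ := ZM.zf.pairing x x
  obtain ⟨t, ht⟩ := ZM.zf.pairing x y
  obtain ⟨p, hp⟩ := ZM.zf.pairing s t
  exact ⟨p, s, t, hs, ht, hp⟩

/-- the ordered pair -/
noncomputable def op (x y : M) : M := (exists_opair x y).choose

theorem isOPair_iff {p x y : M} : IsOPair E p x y ↔ p = op x y := by
  refine ⟨?_, fun h => h ▸ (exists_opair x y).choose_spec⟩
  rintro ⟨s', t', hs', ht', hq⟩
  obtain ⟨s, t, hs, ht, hp⟩ := (exists_opair x y).choose_spec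
  obtain rfl := upair_unique hs hs'
  obtain rfl := upair_unique ht ht'
  exact upair_unique hq hp

theorem pairMem_iff {x y f : M} : PairMem E x y f ↔ E (op x y) f := by
  simp [PairMem, isOPair_iff]

theorem op_inj {x y x' y' : M} (h : op x y = op x' y') : x = x' ∧ y = y' := by
  obtain ⟨s, t, hs, ht, hp⟩ := isOPair_iff.2 h
  obtain ⟨s', t', hs', ht', hp'⟩ := isOPair_iff.2 (rfl : op x y = op x y)
  have h1 : x = x' := by
    rcases (hp s').1 ((hp' s').2 (Or.inl rfl)) with rfl | rfl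
    · simpa using (hs x).1 ((hs' x).2 (Or.inl rfl))
    · simpa [eq_comm] using (hs' x').1 ((ht x').2 (Or.inl rfl))
  subst h1
  refine ⟨rfl, ?_⟩
  rcases (hp t').1 ((hp' t').2 (Or.inr rfl)) with rfl | rfl
  · have h2 : y = x := by simpa using (hs y).1 ((ht' y).2 (Or.inr rfl))
    rcases (hp' t).1 ((hp t).2 (Or.inr rfl)) with rfl | rfl
    · have h3 : y' = x := by simpa using (hs' y').1 ((ht y').2 (Or.inr rfl))
      rw [h2, h3]
    · have h3 : y' = x := by simpa using (hs y').1 ((ht y').2 (Or.inr rfl))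
      rw [h2, h3]
  · rcases (ht y).1 ((ht' y).2 (Or.inr rfl)) with h2 | h2
    · rcases (ht' y').1 ((ht y').2 (Or.inr rfl)) with h3 | h3
      · rw [h2, h3]
      · exact h3.symm
    · exact h2

@[simp] theorem op_eq {x y x' y' : M} : op x y = op x' y' ↔ x = x' ∧ y = y' :=
  ⟨op_inj, fun h => by rw [h.1, h.2]⟩

instance Tm.op (t s : (α → M) → M) [Tm t] [Tm s] : Tm fun v => op (t v) (s v) :=
  have := Tm.ren t some
  have := Tm.ren s some
  ⟨Df.app3 (fun p x y => p = N323C.op x y)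
    ⟨3, Fml.opairF 0 1 2, Sum.inl, fun _ => by rw [Fml.sat_opairF, isOPair_iff]; rfl⟩
    (fun w => w none) _ _⟩

/-- inclusion -/
def Sub {M : Type*} (E : M → M → Prop) (a b : M) : Prop := ∀ z, E z a → E z b

instance Df.sub (t s : (α → M) → M) [Tm t] [Tm s] : Df fun v => Sub E (t v) (s v) :=
  Df.app2 (Sub E) (by unfold Sub; infer_instance) t s

theorem pow (a : M) : ∃ p, ∀ z, E z p ↔ Sub E z a := ZM.zf.powerSet a

theorem uni (a : M) : ∃ u, ∀ z, E z u ↔ ∃ y, E y a ∧ E z y := ZM.zf.union a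

theorem ins (x a : M) : ∃ u, ∀ z, E z u ↔ E z a ∨ z = x := by
  obtain ⟨s, hs⟩ := ZM.zf.pairing x x
  obtain ⟨p, hp⟩ := ZM.zf.pairing a s
  obtain ⟨u, hu⟩ := uni p
  exact ⟨u, fun z => by simp [hu, hp, hs]⟩

theorem prod (a b : M) : ∃ c, ∀ p, E p c ↔ ∃ x y, E x a ∧ E y b ∧ p = op x y := by
  obtain ⟨c, hc⟩ := rep (fun x r => ∀ p, E p r ↔ ∃ y, E y b ∧ p = op x y) a
    fun x _ r r' h h' => ext fun p => (h p).trans (h' p).symm
  obtain ⟨u, hu⟩ := uni c
  refine ⟨u, fun p => (hu p).trans ⟨?_, ?_⟩⟩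
  · rintro ⟨r, hr, hp⟩
    obtain ⟨x, hx, h⟩ := (hc r).1 hr
    obtain ⟨y, hy, h⟩ := (h p).1 hp
    exact ⟨x, y, hx, hy, h⟩
  · rintro ⟨x, y, hx, hy, h⟩
    obtain ⟨r, hr⟩ := rep (fun y p => p = op x y) b fun _ _ _ _ h h' => h.trans h'.symm
    exact ⟨r, (hc r).2 ⟨x, hx, hr⟩, (hr p).2 ⟨y, hy, h⟩⟩

/-- the relation between `a` and `b` given by a definable condition -/
theorem rel (R : M → M → Prop) [Df fun v : Fin 2 → M => R (v 0) (v 1)] (a b : M) :
    ∃ f, (∀ p, E p f → ∃ x y, E x a ∧ E y b ∧ p = op x y) ∧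
      ∀ x y, E (op x y) f ↔ E x a ∧ E y b ∧ R x y := by
  have := fun (t s : (Option (Option (Fin 1)) → M) → M) [Tm t] [Tm s] =>
    Df.app2 R inferInstance t s
  obtain ⟨c, hc⟩ := prod a b
  obtain ⟨f, hf⟩ := sep (fun p => ∃ x y, p = op x y ∧ R x y) c
  refine ⟨f, fun p hp => (hc p).1 ((hf p).1 hp).1, fun x y => ?_⟩
  simp [hf, hc, and_assoc]

theorem IsFunction.dom {f a b x y : M} (h : IsFunction E f a b) (hx : E (op x y) f) :
    E x a ∧ E y b := by
  obtain ⟨x', y', h1, h2, h3⟩ := h.pairs _ hx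
  obtain ⟨rfl, rfl⟩ := op_inj (isOPair_iff.1 h3)
  exact ⟨h1, h2⟩

theorem IsFunction.tot {f a b x : M} (h : IsFunction E f a b) (hx : E x a) :
    ∃ y, E (op x y) f := by
  obtain ⟨y, hy, -⟩ := h.value x hx
  exact ⟨y, pairMem_iff.1 hy⟩

theorem IsFunction.fn {f a b x y y' : M} (h : IsFunction E f a b) (hx : E (op x y) f)
    (hx' : E (op x y') f) : y = y' :=
  (h.value x (IsFunction.dom h hx).1).unique (pairMem_iff.2 hx) (pairMem_iff.2 hx')

/-- the function from `a` to `b` given by a definable condition -/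
theorem mkFun (R : M → M → Prop) [Df fun v : Fin 2 → M => R (v 0) (v 1)] (a b : M)
    (h : ∀ x, E x a → ∃ y, E y b ∧ R x y)
    (h' : ∀ x y y', E x a → E y b → E y' b → R x y → R x y' → y = y') :
    ∃ f, IsFunction E f a b ∧ ∀ x y, E (op x y) f ↔ E x a ∧ E y b ∧ R x y := by
  obtain ⟨f, h1, h2⟩ := rel R a b
  refine ⟨f, ⟨fun p hp => ?_, fun x hx => ?_⟩, h2⟩
  · simpa only [isOPair_iff] using h1 p hp
  · obtain ⟨y, h3, h4⟩ := h x hx
    simp only [pairMem_iff, h2]
    exact ⟨y, ⟨hx, h3, h4⟩, fun y' hy' => h' x _ _ hx hy'.2.1 h3 hy'.2.2 h4⟩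

end Vale.Agent.N323C
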