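import Vale.Agent.N323C.Dfn

/-!
# Ordinals of a model of ZF; the lemma of Hartogs and Lindenbaum (helper28)
-/

namespace Vale.Agent.N323C

open Vale.Agent.P323.Z

/-- ordinals: transitive sets linearly ordered by membership -/
def Ord {M : Type*} (E : M → M → Prop) (a : M) : Prop :=
  (∀ x, E x a → Sub E x a) ∧ ∀ x y, E x a → E y a → E x y ∨ x = y ∨ E y x

variable {M : Type} [ZM M] {α : Type}

instance Df.ord (t : (α → M) → M) [Tm t] : Df fun v => Ord E (t v) :=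
  Df.app1 (Ord E) (by unfold Ord; infer_instance) t

/-- a nonempty definable subclass of a set has a minimal element -/
theorem exists_min (P : M → Prop) [Df fun v : Fin 1 → M => P (v 0)] {a x : M} (hx : E x a)
    (h : P x) : ∃ y, E y a ∧ P y ∧ ∀ z, E z a → P z → ¬ E z y := by
  obtain ⟨b, hb⟩ := sep P a
  obtain ⟨y, h1, h2⟩ := ZM.zf.foundation b ⟨x, (hb x).2 ⟨hx, h⟩⟩
  exact ⟨y, ((hb y).1 h1).1, ((hb y).1 h1).2, fun z h3 h4 => h2 z ((hb z).2 ⟨h3, h4⟩)⟩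

theorem no_cycle {x y z : M} (h1 : E x y) (h2 : E y z) (h3 : E z x) : False := by
  obtain ⟨p, hp⟩ := ZM.zf.pairing x y
  obtain ⟨q, hq⟩ := ins z p
  obtain ⟨w, h4, h5⟩ := ZM.zf.foundation q ⟨z, (hq z).2 (Or.inr rfl)⟩
  simp only [hq, hp] at h4 h5
  rcases h4 with (rfl | rfl) | rfl
  · exact h5 z (Or.inr rfl) h3
  · exact h5 x (Or.inl (Or.inl rfl)) h1
  · exact h5 y (Or.inl (Or.inr rfl)) h2

theorem irr (x : M) : ¬ E x x := fun h => no_cycle h h h

theorem asym {x y : M} (h1 : E x y) (h2 : E y x) : False := by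
  obtain ⟨p, hp⟩ := ZM.zf.pairing x y
  obtain ⟨w, h4, h5⟩ := ZM.zf.foundation p ⟨x, (hp x).2 (Or.inl rfl)⟩
  simp only [hp] at h4 h5
  rcases h4 with rfl | rfl
  · exact h5 y (Or.inr rfl) h2
  · exact h5 x (Or.inl rfl) h1

theorem Ord.mem {a x : M} (h : Ord E a) (hx : E x a) : Ord E x := by
  refine ⟨fun y hy z hz => ?_, fun y z hy hz => h.2 y z (h.1 x hx y hy) (h.1 x hx z hz)⟩
  rcases h.2 z x (h.1 y (h.1 x hx y hy) z hz) hx with h1 | rfl | h1
  · exact h1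
  · exact (asym hz hy).elim
  · exact (no_cycle h1 hz hy).elim

/-- induction in a transitive set -/
theorem ind (P : M → Prop) [Df fun v : Fin 1 → M => P (v 0)] {a : M}
    (ha : ∀ x, E x a → Sub E x a) (h : ∀ x, E x a → (∀ y, E y x → P y) → P x) :
    ∀ x, E x a → P x := by
  intro x hx
  by_contra hc
  obtain ⟨y, h1, h2, h3⟩ := exists_min (fun x => ¬ P x) hx hc
  exact h2 (h y h1 fun z hz => by_contra fun h4 => h3 z (ha y h1 z hz) h4 hz)

/-- induction on the ordinals -/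
theorem ordInd (P : M → Prop) [Df fun v : Fin 1 → M => P (v 0)]
    (h : ∀ b, Ord E b → (∀ y, E y b → P y) → P b) (a : M) (ha : Ord E a) : P a :=
  h a ha (ind P ha.1 fun x hx => h x (ha.mem hx))

theorem Ord.mem_of_sub {a b : M} (ha : Ord E a) (hb : Ord E b) (h : Sub E a b) :
    a = b ∨ E a b := by
  by_cases h1 : Sub E b a
  · exact Or.inl (ext fun z => ⟨h z, h1 z⟩)
  · simp only [Sub, not_forall] at h1
    obtain ⟨x, hx, hx'⟩ := h1
    obtain ⟨y, h2, h3, h4⟩ := exists_min (fun x => ¬ E x a) hx hx'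
    have : a = y := ext fun z => ⟨fun hz => ?_, fun hz => by_contra fun h5 =>
      h4 z (hb.1 y h2 z hz) h5 hz⟩
    · exact Or.inr (this ▸ h2)
    · rcases hb.2 z y (h z hz) h2 with h5 | rfl | h5
      · exact h5
      · exact (h3 hz).elim
      · exact (h3 (ha.1 z hz y h5)).elim

theorem Ord.tri {a b : M} (ha : Ord E a) (hb : Ord E b) : E a b ∨ a = b ∨ E b a := by
  obtain ⟨c, hc⟩ := sep (fun x => E x b) a
  have h : Ord E c := ⟨fun x hx y hy => (hc y).2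
    ⟨ha.1 x ((hc x).1 hx).1 y hy, hb.1 x ((hc x).1 hx).2 y hy⟩,
    fun x y hx hy => ha.2 x y ((hc x).1 hx).1 ((hc y).1 hy).1⟩
  rcases h.mem_of_sub ha fun z hz => ((hc z).1 hz).1 with rfl | h1
  · rcases h.mem_of_sub hb fun z hz => ((hc z).1 hz).2 with rfl | h2
    · exact Or.inr (Or.inl rfl)
    · exact Or.inl h2
  · rcases h.mem_of_sub hb fun z hz => ((hc z).1 hz).2 with rfl | h2
    · exact Or.inr (Or.inr h1)
    · exact (irr c ((hc c).2 ⟨h1, h2⟩)).elim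

theorem Ord.sub_of_not {a b : M} (ha : Ord E a) (hb : Ord E b) (h : ¬ E b a) : Sub E a b := by
  rcases ha.tri hb with h1 | rfl | h1
  · exact hb.1 a h1
  · exact fun _ h => h
  · exact (h h1).elim

theorem ord_of_mem {a : M} (h : ∀ x, E x a → Sub E x a) (h' : ∀ x, E x a → Ord E x) : Ord E a :=
  ⟨h, fun x y hx hy => (h' x hx).tri (h' y hy)⟩

theorem ord_uni {a u : M} (hu : ∀ z, E z u ↔ ∃ y, E y a ∧ E z y) (h : ∀ x, E x a → Ord E x) :
    Ord E u :=
  ord_of_mem (fun x hx z hz => by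
    obtain ⟨y, h1, h2⟩ := (hu x).1 hx
    exact (hu z).2 ⟨y, h1, (h y h1).1 x h2 z hz⟩) fun x hx => by
    obtain ⟨y, h1, h2⟩ := (hu x).1 hx
    exact (h y h1).mem h2

/-- a nonempty definable class of ordinals has a least element -/
theorem ord_min (P : M → Prop) [Df fun v : Fin 1 → M => P (v 0)] {a : M} (ha : Ord E a)
    (h : P a) : ∃ b, P b ∧ ∀ z, E z b → ¬ P z := by
  by_cases h1 : ∃ x, E x a ∧ P x
  · obtain ⟨x, hx, h2⟩ := h1
    obtain ⟨y, h3, h4, h5⟩ := exists_min P hx h2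
    exact ⟨y, h4, fun z hz h6 => h5 z (ha.1 y h3 z hz) h6 hz⟩
  · exact ⟨a, h, fun z hz h2 => h1 ⟨z, hz, h2⟩⟩

/-- `j` assigns disjoint sets to different elements -/
def Dis (j : M) : Prop := ∀ x x' y, E (op x y) j → E (op x' y) j → x = x'

instance Df.dis (t : (α → M) → M) [Tm t] : Df fun v => Dis (t v) :=
  Df.app1 Dis (by unfold Dis; infer_instance) t

/-- the membership relation of `a` carried to `Z` along `j` -/
def Car (j a y y' : M) : Prop := ∃ x x', E x x' ∧ E x' a ∧ E (op x y) j ∧ E (op x' y') j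

theorem rigid {Z a a' j j' : M} (ha : Ord E a) (ha' : Ord E a') (hj : Dis j) (hj' : Dis j')
    (ht : ∀ x, E x a → ∃ y, E y Z ∧ E (op x y) j) (ht' : ∀ x, E x a' → ∃ y, E y Z ∧ E (op x y) j')
    (h : ∀ y y', E y Z → E y' Z → (Car j a y y' ↔ Car j' a' y y')) :
    ∀ x, E x a → ∀ x' y, E x' a' → E y Z → E (op x y) j → E (op x' y) j' → x = x' := by
  refine ind (fun x => ∀ x' y, E x' a' → E y Z → E (op x y) j → E (op x' y) j' → x = x') ha.1
    fun x hx ih x' y hx' hy h1 h2 => ext fun z => ⟨fun hz => ?_, fun hz => ?_⟩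
  · obtain ⟨w, hw, h3⟩ := ht z (ha.1 x hx z hz)
    obtain ⟨z', x'', h4, h5, h6, h7⟩ := (h w y hw hy).1 ⟨z, x, hz, hx, h3, h1⟩
    obtain rfl := hj' _ _ _ h7 h2
    rwa [ih z hz z' w (ha'.1 _ h5 _ h4) hw h3 h6]
  · obtain ⟨w, hw, h3⟩ := ht' z (ha'.1 x' hx' z hz)
    obtain ⟨z', x'', h4, h5, h6, h7⟩ := (h w y hw hy).2 ⟨z, x', hz, hx', h3, h2⟩
    obtain rfl := hj _ _ _ h7 h1
    rwa [← ih z' h4 z w (ha'.1 _ hx' _ hz) hw h6 h3]

/-- No set is mapped onto all ordinals. -/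
theorem lindenbaum (Z : M) : ∃ a, Ord E a ∧
    ¬ ∃ j, Dis j ∧ ∀ x, E x a → ∃ y, E y Z ∧ E (op x y) j := by
  by_contra hc
  simp only [not_exists, not_and, not_forall, not_not] at hc
  obtain ⟨Q, hQ⟩ := prod Z Z
  obtain ⟨P, hP⟩ := pow Q
  obtain ⟨S, hS⟩ := prod P Z
  obtain ⟨O, hO⟩ := rep (fun p x => ∃ R y a j, p = op R y ∧ Ord E a ∧ E x a ∧ Dis j ∧
      (∀ x, E x a → ∃ y, E y Z ∧ E (op x y) j) ∧ E y Z ∧ E (op x y) j ∧
      ∀ y y', E y Z → E y' Z → (E (op y y') R ↔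
        ∃ x x', E x x' ∧ E x' a ∧ E (op x y) j ∧ E (op x' y') j)) S (by
    rintro p - x x' ⟨R, y, a, j, rfl, h1, h2, h3, h4, h5, h6, h7⟩
      ⟨R', y', a', j', h0, h1', h2', h3', h4', -, h6', h7'⟩
    obtain ⟨rfl, rfl⟩ := op_inj h0
    exact rigid h1 h1' h3 h3' h4 h4'
      (fun y y' hy hy' => (h7 y y' hy hy').symm.trans (h7' y y' hy hy')) x h2 x' y h2' h5 h6 h6')
  have h1 : ∀ x, E x O ↔ Ord E x := fun x => ⟨fun hx => by
    obtain ⟨p, -, R, y, a, j, -, h1, h2, -⟩ := (hO x).1 hx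
    exact h1.mem h2, fun hx => by
    obtain ⟨a, ha⟩ := ins x x
    have h1 : Ord E a := ord_of_mem (fun y hy z hz => (ha z).2 (Or.inl (by
      rcases (ha y).1 hy with h | rfl
      · exact hx.1 y h z hz
      · exact hz))) fun y hy => by
      rcases (ha y).1 hy with h | rfl
      · exact hx.mem h
      · exact hx
    obtain ⟨j, h2, h3⟩ : ∃ j, Dis j ∧ ∀ x, E x a → ∃ y, E y Z ∧ E (op x y) j := by
      simpa using hc a h1
    obtain ⟨y, h4, h5⟩ := h3 x ((ha x).2 (Or.inr rfl))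
    obtain ⟨R, h6, h7⟩ := rel
      (fun y y' => ∃ x x', E x x' ∧ E x' a ∧ E (op x y) j ∧ E (op x' y') j) Z Z
    exact (hO x).2 ⟨op R y, (hS _).2 ⟨R, y, (hP R).2 fun p hp => (hQ p).2 (h6 p hp), h4, rfl⟩,
      R, y, a, j, rfl, h1, (ha x).2 (Or.inr rfl), h2, h3, h4, h5,
      fun y y' hy hy' => by rw [h7]; simp [hy, hy']⟩⟩
  exact irr O ((h1 O).2 (ord_of_mem
    (fun x hx z hz => (h1 z).2 (((h1 x).1 hx).mem hz)) fun x => (h1 x).1))

end Vale.Agent.N323C
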