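import Vale.Agent.N323C.Force
import Vale.Agent.N323C.Ord

/-!
# The sentence on images of subsets of `η × P(κ)` is valid in the forcing model (helper28)
-/

namespace Vale.Agent.N323C

open CategoryTheory Vale.Agent.P323.Z Vale.Agent.P323.F Vale.Agent.P323.Z.Fml
open NameTheory hiding op

/-- `a ⊆ b` -/
def subF {n : ℕ} (a b : Fin n) : Fml n := all (imp (mem la (up a)) (mem la (up b)))

/-- `a` is an ordinal -/
def ordF {n : ℕ} (a : Fin n) : Fml n :=
  and (all (imp (mem la (up a)) (subF la (up a))))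
    (all (all (imp (mem (up la) (up (up a))) (imp (mem la (up (up a)))
      (or (mem (up la) la) (or (eq (up la) la) (mem la (up la))))))))

/-- every member of `Y` is a pair `(ξ, s)` with `ξ ∈ η ∖ κ`, `s ⊆ κ` -/
def boxF {n : ℕ} (Y η κ : Fin n) : Fml n :=
  all (imp (mem la (up Y)) (ex (ex (and (opairF (up (up la)) (up la) la)
    (and (mem (up la) (up (up (up η)))) (and (neg (mem (up la) (up (up (up κ)))))
      (subF la (up (up (up κ))))))))))

/-- the sentence -/
def svcF : Fml 0 :=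
  ex (and (ordF la) (all (ex (ex (ex (and (ordF (up (up la)))
    (and (subF (up (up (up (up la)))) (up (up la)))
      (and (surjectionF la (up la) (up (up (up la))))
        (boxF (up la) (up (up la)) (up (up (up (up la)))))))))))))

section
variable {M : Type*} (E : M → M → Prop)

theorem sat_subF {n : ℕ} (a b : Fin n) (v : Fin n → M) :
    (subF a b).Sat E v ↔ Sub E (v a) (v b) := by
  simp [subF, Sub]

theorem sat_ordF {n : ℕ} (a : Fin n) (v : Fin n → M) : (ordF a).Sat E v ↔ Ord E (v a) := by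
  simp [ordF, Ord, sat_subF]

theorem sat_svcF (v : Fin 0 → M) : svcF.Sat E v ↔ ∃ κ, Ord E κ ∧ ∀ A, ∃ η Y f, Ord E η ∧
    Sub E κ η ∧ IsSurjection E f Y A ∧
      ∀ p, E p Y → ∃ ξ s, IsOPair E p ξ s ∧ E ξ η ∧ ¬ E ξ κ ∧ Sub E s κ := by
  simp only [svcF, boxF, sat_all, sat_imp, sat_ex, sat_and, sat_neg, sat_mem, sat_subF, sat_ordF,
    sat_opairF, sat_surjectionF, Fin.snoc_castSucc, Fin.snoc_last]

end

/-- the names `ck o` are names of ordinals -/
class CkOrd (C : Type 1) [Category.{1} C] [NameTheory C] : Prop where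
  ck_lt : ∀ {o o' : Ordinal.{1}}, o' < o → ∀ X : C, fmem (ck o' X : N X) (ck o X)
  of_mem_ck : ∀ {X : C} {o : Ordinal.{1}} {c : N X}, fmem c (ck o X) →
    ∃ (Y : C) (k : X ⟶ Y), ∃ o' < o, feq (mv k c) (ck o' Y)

export CkOrd (ck_lt of_mem_ck)

theorem ckOrd (C : Type 1) [Category.{1} C] : @CkOrd C _ (nameTheory C) :=
  @CkOrd.mk C _ (nameTheory C) (fun h X => LN.ck_mem h X) fun {X _ _} h => by
    obtain ⟨Y, k, h⟩ := LN.fmem_ck.1 h X (𝟙 X)
    exact ⟨Y, _, h⟩

section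
variable {C : Type 1} [Category.{1} C] [NameTheory C]

theorem forces_subF {n : ℕ} (a b : Fin n) {X : C} (xs : Fin n → N X) :
    Forces (atomicOf C) (subF a b) X xs ↔
      ∀ (Y : C) (f : X ⟶ Y) (c : N Y), fmem c (mv f (xs a)) → fmem c (mv f (xs b)) := by
  rw [subF, forces_all]
  simp only [forces_imp, forces_mem, Fin.snoc_last, Fin.snoc_castSucc, mv_mv]
  constructor
  · intro h Y f c
    simpa only [mv_id, Category.comp_id] using h Y f c Y (𝟙 Y)
  · intro h Y f c Z g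
    exact h Z _ _

theorem mem_ck_mv {X Y : C} {o : Ordinal.{1}} {a : N X} (h : feq a (ck o X)) (f : X ⟶ Y)
    {c : N Y} : fmem c (mv f a) ↔ fmem c (ck o Y) :=
  have e := feq_trans (feq_mv f h) (ck_mv o f)
  ⟨fmem_congr (feq_refl _) e, fmem_congr (feq_refl _) (feq_symm e)⟩

variable [CkOrd C]

theorem lt_of_ck {X : C} {o o' : Ordinal.{1}} (h : fmem (ck o' X : N X) (ck o X)) : o' < o := by
  obtain ⟨Y, k, o'', h1, h2⟩ := of_mem_ck h
  rwa [ck_ne (feq_trans (feq_symm (ck_mv _ _)) h2)]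

theorem ck_sub {X : C} {o o' : Ordinal.{1}} (h : o ≤ o') {c : N X} (hc : fmem c (ck o X)) :
    fmem c (ck o' X) := by
  refine fmem_loc fun {Y} k => ?_
  obtain ⟨Z, l, o'', h1, h2⟩ := of_mem_ck (fmem_congr (feq_refl _) (ck_mv _ _) (fmem_mv k hc))
  rw [mv_mv] at h2
  exact ⟨Z, l, fmem_congr (feq_symm h2) (feq_symm (ck_mv _ _)) (ck_lt (h1.trans_le h) Z)⟩

theorem forces_ordF {n : ℕ} (a : Fin n) {X : C} (xs : Fin n → N X) {o : Ordinal.{1}}
    (h : feq (xs a) (ck o X)) : Forces (atomicOf C) (ordF a) X xs := by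
  rw [ordF, forces_and, forces_all, forces_all]
  simp only [forces_all, forces_imp, forces_or, forces_mem, forces_eq, forces_subF, Fin.snoc_last,
    Fin.snoc_castSucc, mv_mv, mem_ck_mv h]
  constructor
  · intro Y f x Z g hx W k c hc
    refine fmem_loc fun {V} l => ?_
    obtain ⟨U, m, o', h1, h2⟩ :=
      of_mem_ck (fmem_congr (feq_refl _) (ck_mv _ _) (fmem_mv (k ≫ l) hx))
    have h3 := fmem_mv (l ≫ m) hc
    simp only [mv_mv, Category.assoc] at h2 h3
    exact ⟨U, m, fmem_congr (feq_refl _) (feq_symm (ck_mv _ _))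
      (ck_sub h1.le (fmem_congr (feq_refl _) h2 h3))⟩
  · intro Y f x Z g y W k hx V l hy U m
    obtain ⟨U1, m1, o1, -, h1⟩ :=
      of_mem_ck (fmem_congr (feq_refl _) (ck_mv _ _) (fmem_mv (l ≫ m) hx))
    obtain ⟨U2, m2, o2, -, h2⟩ :=
      of_mem_ck (fmem_congr (feq_refl _) (ck_mv _ _) (fmem_mv (m ≫ m1) hy))
    have h3 := feq_trans (feq_mv m2 h1) (ck_mv _ _)
    simp only [mv_mv, Category.assoc] at h2 h3 ⊢
    refine ⟨U2, m1 ≫ m2, ?_⟩
    rcases lt_trichotomy o1 o2 with h4 | rfl | h4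
    · exact Or.inl (fmem_congr (feq_symm h3) (feq_symm h2) (ck_lt h4 _))
    · refine Or.inr fun T t => ⟨T, 𝟙 T, Or.inl ?_⟩
      simpa only [mv_mv, Category.assoc, Category.comp_id] using
        feq_mv t (feq_trans h3 (feq_symm h2))
    · refine Or.inr fun T t => ⟨T, 𝟙 T, Or.inr ?_⟩
      simpa only [mv_mv, Category.assoc, Category.comp_id] using
        fmem_mv t (fmem_congr (feq_symm h2) (feq_symm h3) (ck_lt h4 _))

end

variable {D : Type 1} [Category.{1} D] [Tw D] [NameTheory (CObj D)] [CkOrd (CObj D)]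

theorem c1_sub {W : CObj D} (e : P323.H341.Z1 ⟶ W) {y : N W} (h : fmem y (mv e c1)) :
    fmem y (ck (kap D) W) := by
  refine fmem_loc fun {Y} k => ?_
  have h1 := fmem_mv k h
  rw [mv_mv] at h1
  obtain ⟨Z, l, u, -, h2⟩ := c1_elim _ h1
  rw [mv_mv] at h2
  exact ⟨Z, l, fmem_congr (feq_symm h2) (feq_symm (ck_mv _ _))
    (ck_lt (Ordinal.typein_lt_type _ _) Z)⟩

theorem valid_svcF (H : OpPair (CObj D)) : Valid (atomicOf (CObj D)) svcF := by
  refine valid_ex fun X xs => ⟨ck (kap D) X, (forces_and _ _).2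
    ⟨forces_ordF _ _ (o := kap D) (by simpa only [Fin.snoc_last] using feq_refl _), ?_⟩⟩
  intro Y f A
  obtain ⟨η, S, F, h1, h2, h3, h4⟩ := exists_onto A
  refine forces_ex_of (ck η Y) (forces_ex_of S (forces_ex_of F ?_))
  have e := ck_mv (kap D) f
  rw [forces_and, forces_and, forces_and, forces_subF, forces_surjectionF H, boxF,
    forces_all]
  simp only [forces_imp, forces_ex, forces_and, forces_neg, forces_mem, forces_opairF,
    forces_subF, fopair_iff H, Fin.snoc_last, Fin.snoc_castSucc, mv_mv,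
    mem_ck_mv (feq_refl (ck _ _))]
  refine ⟨forces_ordF _ _ (o := η)
    (by simpa only [Fin.snoc_last, Fin.snoc_castSucc] using feq_refl _),
    fun Z g c => ck_sub h1, ⟨h2, h3⟩, ?_⟩
  intro Z g p W k hp V l
  have h5 := fmem_mv l hp
  rw [mv_mv, mv_mv] at h5
  obtain ⟨U, m, ξ, e, h6, h7, h8⟩ := h4 _ _ h5
  refine ⟨U, m, ck ξ U, fun T t => ⟨T, 𝟙 T, mv (e ≫ t) c1, ?_, ?_, fun R r h9 => ?_,
    fun R r c hc => c1_sub _ (mv_mv (e ≫ t) r c1 ▸ hc)⟩⟩
  · have := feq_trans (feq_mv t h8) (op_mv t _ _)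
    simpa only [mv_mv, Category.assoc, Category.comp_id] using this
  · exact fmem_congr (feq_symm (ck_mv _ _)) (feq_refl _) (ck_lt h7 T)
  · exact (lt_of_ck (fmem_congr (ck_mv _ _) (feq_refl _) h9)).not_ge h6

end Vale.Agent.N323C
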