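import Vale.Agent.P323.Z.Final

/-!
# Every set is forced to be an image of a subset of `η × P(κ)`, for one ordinal `κ` (helper28)
-/

namespace Vale.Agent.N323C

open CategoryTheory Vale.Agent.P323.Z NameTheory TwBase Vale.Agent.P323.H894 Vale.Agent.P323.H341

noncomputable section

variable {D : Type 1} [Category.{1} D]

/-- Two different maps out of `a 1` differ on non-small many maps into `a 1`. -/
theorem not_small_diff [Tw D] {d : D} (g g' : (a 1 : D) ⟶ d) (hne : g ≠ g') :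
    ¬ Small.{0} {u : Dn (a 1 : D) // u.2 ≫ g ≠ u.2 ≫ g'} := by
  intro hs
  obtain ⟨i0, hg, hg'⟩ := mem_common g g'
  have h0 : ∀ i : Ordinal.{0}, Mem i (ι 0 : (a 0 : D) ⟶ a 1) :=
    fun i => mem_mono zero_le (ι_mem 0)
  have h1 : ∀ i, i0 ≤ i → genX i 0 (h0 i) ≫ g ≠ genX i 0 (h0 i) ≫ g' := by
    intro i hi h
    have h2 := Tw.G5 (tkX i (ι 0) (h0 i) (mem_one i 0)) (𝟙 (a 1 : D)) (𝟙 (a 1 : D))
      (PG.one _) (PG.one _) (genX i 0 (h0 i)) (genX i 0 (h0 i)) (Category.comp_id _)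
      (Category.comp_id _) g g' (mem_mono hi hg) (mem_mono hi hg') (𝟙 (a 1 : D)) (𝟙 (a 1 : D))
      (by
        change 𝟙 (a 1 : D) ≫ genX i 0 (h0 i) ≫ g = 𝟙 (a 1 : D) ≫ genX i 0 (h0 i) ≫ g'
        rw [h])
    rcases h2 with h2 | h2 | ⟨-, K, x, y, -, -, ⟨h3, h4, -⟩, h5⟩
    · exact ι_not (D := D) 0 h2
    · exact ι_not (D := D) 0 h2
    · have h6 : ∀ (x y : K ⟶ (a 1 : D)), x ≫ 𝟙 _ = y ≫ 𝟙 _ → IsIso (x ≫ 𝟙 _) →
          x ≫ g = y ≫ g' → g = g' := by
        intro x y h3 h4 h5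
        rw [Category.comp_id] at h4
        rw [Category.comp_id, Category.comp_id] at h3
        rwa [← h3, cancel_epi] at h5
      exact hne (h6 x y h3 h4 h5)
  let f : Ordinal.{0} → {u : Dn (a 1 : D) // u.2 ≫ g ≠ u.2 ≫ g'} := fun i =>
    ⟨⟨a 1, genX (i0 + i) 0 (h0 _)⟩, h1 _ le_self_add⟩
  have key : ∀ i j : Ordinal.{0}, i < j → f i ≠ f j := by
    intro i j hij h
    have h1 := congrArg Subtype.val h
    have h2 := eq_of_heq (Sigma.mk.inj h1).2
    refine gen_new (i0 + j) 0 (h0 _) ?_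
    rw [← h2]
    exact mem_mono (Order.add_one_le_of_lt ((add_lt_add_iff_left i0).2 hij)) (Tw.gen_mem _)
  have hf : Function.Injective f := by
    intro i j h
    rcases lt_trichotomy i j with h' | h' | h'
    · exact absurd h (key i j h')
    · exact h'
    · exact absurd h.symm (key j i h')
  exact not_small_ord (small_of_injective hf)

/-- the condition `(a 1, {u ↦ 1})` -/
abbrev Z1u [TwBase D] (u : Dn (a 1 : D)) : CObj D := rc (a 1) (pt u true) (sm_pt _ _)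

/-- the identity as a map out of `(a 1, ∅)` -/
def zz [TwBase D] (p : Col (a 1 : D)) (hp : Col.Sm p) : (Z1 : CObj D) ⟶ rc (a 1) p hp :=
  mkHom (X := Z1) (Y := rc (a 1) p hp) (𝟙 (a 1 : D)) (emp_le _)

theorem zz_comp [TwBase D] (p : Col (a 1 : D)) (hp : Col.Sm p) {W : CObj D}
    (w : rc (a 1) p hp ⟶ W) : (zz p hp ≫ w).u = w.u := Category.id_comp _

section
variable {C : Type 1} [Category.{1} C] [NameTheory C]

theorem mkN_mem {X : C} {I : Type 1} (Z : I → C) (u : ∀ i, X ⟶ Z i) (e : ∀ i, N (Z i)) (i : I)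
    {W : C} (w : Z i ⟶ W) : fmem (mv w (e i)) (mv (u i ≫ w) (mkN X Z u e)) := by
  refine (fmem_mkN X Z u e _ _).2 fun {W'} k => ⟨W', 𝟙 _, i, w ≫ k, ?_, ?_⟩
  · simp
  · rw [Category.comp_id, mv_mv]
    exact feq_refl _

theorem mkN_elim {X : C} {I : Type 1} {Z : I → C} {u : ∀ i, X ⟶ Z i} {e : ∀ i, N (Z i)}
    {W : C} {v : X ⟶ W} {ρ : N W} (h : fmem ρ (mv v (mkN X Z u e))) :
    ∃ (W' : C) (k : W ⟶ W') (i : I) (w : Z i ⟶ W'), v ≫ k = u i ≫ w ∧
      feq (mv k ρ) (mv w (e i)) := by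
  obtain ⟨W', k, i, w, h1, h2⟩ := (fmem_mkN X Z u e _ _).1 h (𝟙 W)
  rw [Category.id_comp] at h1 h2
  exact ⟨W', k, i, w, h1, h2⟩

theorem mem_ent' {X W : C} (v : X ⟶ W) {A : N X} {y : N W} (h : fmem y (mv v A)) :
    ∃ (Y : C) (k : W ⟶ Y) (e : Ent (mv (v ≫ k) A)), feq (mv k y) (ent _ e) := by
  obtain ⟨Y, k, h⟩ := mem_ent h
  refine ⟨Y, k, ?_⟩
  rw [← mv_mv]
  exact h

/-- A family of codes that determine the elements gives a surjection. -/
theorem onto_of_codes {X : C} (A : N X) {I : Type 1} (Z : I → C) (u : ∀ i, X ⟶ Z i)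
    (s t : ∀ i, N (Z i)) (ht : ∀ i, fmem (t i) (mv (u i) A))
    (hc : ∀ {W : C} (v : X ⟶ W) (y : N W), fmem y (mv v A) →
      ∃ (W' : C) (k : W ⟶ W') (i : I) (w : Z i ⟶ W'), v ≫ k = u i ≫ w ∧
        feq (mv k y) (mv w (t i)))
    (hs : ∀ i j {W : C} (w : Z i ⟶ W) (w' : Z j ⟶ W), feq (mv w (s i)) (mv w' (s j)) →
      feq (mv w (t i)) (mv w' (t j))) :
    FFun (mkN X Z u fun i => op (s i) (t i)) (mkN X Z u s) A ∧
      FOnto (mkN X Z u fun i => op (s i) (t i)) A := by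
  have hm : ∀ i {W : C} (w : Z i ⟶ W), fmem (op (mv w (s i)) (mv w (t i)))
      (mv (u i ≫ w) (mkN X Z u fun i => op (s i) (t i))) := fun i W w =>
    fmem_congr (op_mv _ _ _) (feq_refl _) (mkN_mem Z u (fun i => op (s i) (t i)) i w)
  have he : ∀ {W : C} (v : X ⟶ W) (x y : N W),
      fmem (op x y) (mv v (mkN X Z u fun i => op (s i) (t i))) →
      ∃ (W' : C) (k : W ⟶ W') (i : I) (w : Z i ⟶ W'), feq (mv k x) (mv w (s i)) ∧
        feq (mv k y) (mv w (t i)) := by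
    intro W v x y h
    obtain ⟨W', k, i, w, -, h2⟩ := mkN_elim h
    exact ⟨W', k, i, w, op_feq.1
      (feq_trans (feq_symm (op_mv k x y)) (feq_trans h2 (op_mv w _ _)))⟩
  refine ⟨⟨fun v p hp => ?_, fun v x y y' h h' => ?_, fun v x hx => ?_⟩, fun v y hy => ?_⟩
  · obtain ⟨W', k, i, w, h1, h2⟩ := mkN_elim hp
    refine ⟨W', k, mv w (s i), mv w (t i), h1 ▸ mkN_mem Z u s i w, ?_,
      feq_trans h2 (op_mv w _ _)⟩
    rw [h1, ← mv_mv]
    exact fmem_mv w (ht i)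
  · refine feq_loc fun {Y} k => ?_
    have h3 := P323.F.fmem_op_mv k h
    rw [mv_mv] at h3
    obtain ⟨W1, k1, i, w, h4, h5⟩ := he _ _ _ h3
    have h6 := P323.F.fmem_op_mv (k ≫ k1) h'
    rw [mv_mv] at h6
    obtain ⟨W2, k2, j, w', h7, h8⟩ := he _ _ _ h6
    refine ⟨W2, k1 ≫ k2, ?_⟩
    have h9 := feq_mv k2 h4
    have h10 := feq_mv k2 h5
    simp only [mv_mv, Category.assoc] at h7 h8 h9 h10
    exact feq_trans h10 (feq_trans (hs i j _ _ (feq_trans (feq_symm h9) h7)) (feq_symm h8))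
  · obtain ⟨W', k, i, w, h1, h2⟩ := mkN_elim hx
    refine ⟨W', k, mv w (t i), ?_⟩
    rw [h1]
    exact fmem_congr (op_feq.2 ⟨feq_symm h2, feq_refl _⟩) (feq_refl _) (hm i w)
  · obtain ⟨W', k, i, w, h1, h2⟩ := hc v y hy
    refine ⟨W', k, mv w (s i), ?_⟩
    rw [h1]
    exact fmem_congr (op_feq.2 ⟨feq_refl _, feq_symm h2⟩) (feq_refl _) (hm i w)

end

variable [Tw D] [NameTheory (CObj D)]

/-- the name of the set of codes of the maps into `a 1` with colour `1` -/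
def c1 : N (Z1 : CObj D) :=
  mkN Z1 (I := Dn (a 1 : D)) (fun u => Z1u u) (fun _ => zz _ _) (fun u => ck (code _ u) _)

theorem c1_mem {W : CObj D} (e : Z1 ⟶ W) (u : Dn (a 1 : D))
    (h : W.p (Dn.post e.u u) = some true) : fmem (ck (code _ u) W) (mv e c1) := by
  have hle : Col.Le (pt u true) (Col.pull e.u W.p) := by
    intro z c hz
    obtain ⟨h1, h2⟩ : z = u ∧ true = c := pt_eq_some.1 hz
    rw [h1, ← h2]
    exact h
  let w : Z1u u ⟶ W := mkHom (X := Z1u u) e.u hle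
  have h1 : e = zz _ _ ≫ w := chom_ext (zz_comp _ _ w).symm
  rw [h1]
  exact fmem_congr (ck_mv _ _) (feq_refl _)
    (mkN_mem (fun u => Z1u u) (fun _ => zz _ _) (fun u => ck (code _ u) _) u w)

theorem c1_elim {W : CObj D} (e : Z1 ⟶ W) {y : N W} (h : fmem y (mv e c1)) :
    ∃ (W' : CObj D) (k : W ⟶ W') (u : Dn (a 1 : D)),
      W'.p (Dn.post k.u (Dn.post e.u u)) = some true ∧ feq (mv k y) (ck (code _ u) W') := by
  obtain ⟨W', k, u, w, hw, he⟩ := mkN_elim h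
  refine ⟨W', k, u, ?_, feq_trans he (ck_mv _ _)⟩
  have h4 : e.u ≫ k.u = w.u := (congrArg CHom.u hw).trans (zz_comp _ _ w)
  rw [← Dn.post_comp, h4]
  exact hom_le w u true (pt_self u true)

/-- Different morphisms out of `Z1` give different sets. -/
theorem c1_inj {V : CObj D} (e₁ e₂ : Z1 ⟶ V) (heq : feq (mv e₁ c1) (mv e₂ c1)) :
    e₁.u = e₂.u := by
  by_contra hne
  obtain ⟨u, hu, h1, h2⟩ : ∃ u : Dn (a 1 : D), u.2 ≫ e₁.u ≠ u.2 ≫ e₂.u ∧
      V.p (Dn.post e₁.u u) = none ∧ V.p (Dn.post e₂.u u) = none := by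
    by_contra hcon
    push Not at hcon
    apply not_small_diff (D := D) e₁.u e₂.u hne
    have s1 : Small.{0} {z // Col.pull e₁.u V.p z ≠ none} := sm_pull e₁.u V.sm
    have s2 : Small.{0} {z // Col.pull e₂.u V.p z ≠ none} := sm_pull e₂.u V.sm
    have s3 : Small.{0} ↥({z | Col.pull e₁.u V.p z ≠ none} ∪ {z | Col.pull e₂.u V.p z ≠ none}) :=
      @small_union _ _ _ s1 s2
    refine @small_subset _ _ {u : Dn (a 1 : D) | u.2 ≫ e₁.u ≠ u.2 ≫ e₂.u} (fun u hu => ?_) s3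
    by_cases h : V.p (Dn.post e₁.u u) = none
    · exact Or.inr (hcon u hu h)
    · exact Or.inl h
  have hne' : Dn.post e₁.u u ≠ Dn.post e₂.u u := fun h => hu (eq_of_heq (Sigma.mk.inj h).2)
  obtain ⟨V', j, hj1, hj2⟩ := add_two _ _ h1 h2 hne'
  have e1 : fmem (ck (code _ u) V') (mv (e₁ ≫ j) c1) := by
    apply c1_mem
    rw [comp_u, Dn.post_comp]
    exact hj1
  have h3 := feq_mv j heq
  rw [mv_mv, mv_mv] at h3
  obtain ⟨W', k, u', h4, h5⟩ := c1_elim _ (fmem_congr (feq_refl _) h3 e1)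
  obtain rfl : u = u' := code_inj (ck_ne (feq_trans (feq_symm (ck_mv _ _)) h5))
  rw [comp_u, Dn.post_comp] at h4
  have h6 : W'.p (Dn.post k.u (Dn.post j.u (Dn.post e₂.u u))) = some false := hom_le k _ _ hj2
  rw [h6] at h4
  simp at h4

/-- indices of the elements of a name -/
structure SIdx {X : CObj D} (A : N X) : Type 1 where
  Y : CObj D
  v : X ⟶ Y
  e : Ent (mv v A)
  p : Col (a 1 : D)
  hp : Col.Sm p
  l : Y ⟶ rc (a 1) p hp

variable (D) in
/-- the ordinal above all codes -/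
def kap : Ordinal.{1} := Ordinal.type (α := Dn (a 1 : D)) WellOrderingRel

/-- the ordinal attached to an index -/
def tag {X : CObj D} {A : N X} (m : SIdx A) : Ordinal.{1} :=
  kap D + Ordinal.typein (α := SIdx A) WellOrderingRel m

theorem exists_onto {X : CObj D} (A : N X) : ∃ (η : Ordinal.{1}) (S F : N X), kap D ≤ η ∧
    FFun F S A ∧ FOnto F A ∧ ∀ {W : CObj D} (v : X ⟶ W) (p : N W), fmem p (mv v S) →
      ∃ (W' : CObj D) (k : W ⟶ W') (ξ : Ordinal.{1}) (e : Z1 ⟶ W'), kap D ≤ ξ ∧ ξ < η ∧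
        feq (mv k p) (op (ck ξ W') (mv e c1)) := by
  let s : ∀ m : SIdx A, N (rc (a 1) m.p m.hp) := fun m => op (ck (tag m) _) (mv (zz _ _) c1)
  have hs : ∀ (m : SIdx A) {W : CObj D} (w : rc (a 1) m.p m.hp ⟶ W),
      feq (mv w (s m)) (op (ck (tag m) W) (mv (zz _ _ ≫ w) c1)) := fun m W w =>
    feq_trans (op_mv _ _ _) (op_feq.2 ⟨ck_mv _ _, by rw [mv_mv]; exact feq_refl _⟩)
  obtain ⟨h1, h2⟩ := onto_of_codes A (I := SIdx A) (fun m => rc (a 1) m.p m.hp)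
    (fun m => m.v ≫ m.l) s (fun m => mv m.l (ent _ m.e))
    (fun m => by rw [← mv_mv]; exact fmem_mv _ (ent_mem _ _))
    (fun {W} v y hy => by
      obtain ⟨Y, k, e, he⟩ := mem_ent' v hy
      obtain ⟨α⟩ := to_a1 Y.x
      let l : Y ⟶ rc (a 1) (Col.push α Y.p) (sm_push _ Y.sm) := mkHom α (by
        change Col.Le Y.p (Col.pull α (Col.push α Y.p))
        rw [pull_push]
        exact Col.Le.refl _)
      refine ⟨_, k ≫ l, ⟨Y, v ≫ k, e, _, _, l⟩, 𝟙 _, by simp, ?_⟩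
      rw [mv_id, ← mv_mv]
      exact feq_mv l he)
    (fun m m' W w w' h => by
      obtain ⟨h3, h4⟩ := op_feq.1 (feq_trans (feq_symm (hs m w)) (feq_trans h (hs m' w')))
      obtain rfl : m = m' := (Ordinal.typein (α := SIdx A) WellOrderingRel).injective
        (add_left_cancel (ck_ne h3))
      have h5 := c1_inj _ _ h4
      rw [zz_comp, zz_comp] at h5
      rw [chom_ext h5]
      exact feq_refl _)
  refine ⟨kap D + Ordinal.type (α := SIdx A) WellOrderingRel, _, _, le_self_add, h1, h2,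
    fun v p hp => ?_⟩
  obtain ⟨W', k, m, w, -, h3⟩ := mkN_elim hp
  exact ⟨W', k, tag m, zz _ _ ≫ w, le_self_add,
    (add_lt_add_iff_left _).2 (Ordinal.typein_lt_type _ _), feq_trans h3 (hs m w)⟩

end

end Vale.Agent.N323C
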