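import Vale.Agent.N323C.Defs
import Vale.Agent.N323C.DC
import Mathlib.Tactic.FinCases

/-! The meaning of the formulas of `N323C/Defs`, and the models of the theory `ZF` (in part after
the file `N129/Logic` of helper21). -/

namespace Vale.Agent.N323C.S

open FirstOrder FirstOrder.Language Vale.Agent.P323.Z Function

/-- The membership relation of a structure. -/
def el (M : Type*) [LSet.Structure M] (x y : M) : Prop :=
  Structure.RelMap (L := LSet) MemSymb.mem ![x, y]

variable {M : Type*}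

theorem struct_eq [S : LSet.Structure M] : S = memStructure (el M) := by
  obtain ⟨f, r⟩ := S
  unfold memStructure
  congr 1
  · funext n g
    exact (g : Empty).elim
  · funext n s v
    cases s
    change r MemSymb.mem v = r MemSymb.mem ![v 0, v 1]
    congr 1
    funext i
    fin_cases i <;> rfl

variable [LSet.Structure M]

theorem sat_iff {n : ℕ} (φ : LSet.BoundedFormula Empty n) (v : Fin n → M) :
    Sat (el M) φ v ↔ φ.Realize default v := by
  unfold Sat
  rw [← struct_eq, Subsingleton.elim (Empty.elim : Empty → M) default]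

/-- truth below `k` quantifiers -/
def Ev (φ : F) (k : ℕ) (v : ℕ → M) : Prop := (φ k).Realize default fun i : Fin k => v i

variable {φ ψ : F} {k : ℕ} {v : ℕ → M} {x y p f : ℕ}

theorem ev_zero (v : ℕ → M) : M ⊨ φ 0 ↔ Ev φ 0 v := by
  unfold Ev
  rw [Subsingleton.elim (fun i : Fin 0 => v i) default]
  rfl

theorem ev_mem (hx : x < k) (hy : y < k) : Ev (mem x y) k v ↔ el M (v x) (v y) := by
  unfold Ev mem
  rw [dif_pos ⟨hx, hy⟩]
  exact BoundedFormula.realize_rel₂ (L := LSet) (R := MemSymb.mem)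

theorem ev_eq (hx : x < k) (hy : y < k) : Ev (eq x y) k v ↔ v x = v y := by
  unfold Ev eq
  rw [dif_pos ⟨hx, hy⟩, BoundedFormula.realize_bdEqual]
  rfl

theorem ev_inst {m : ℕ} {χ : LSet.Formula (Fin m)} {r : Fin m → ℕ} (h : ∀ i, r i < k) :
    Ev (inst χ r) k v ↔ χ.Realize fun i => v (r i) := by
  unfold Ev inst
  rw [dif_pos h]
  refine (BoundedFormula.realize_relabel (m := k) (n := 0)).trans ?_
  rw [Formula.Realize]
  exact iff_of_eq (congrArg₂ _ rfl (Subsingleton.elim _ _))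

theorem ev_not : Ev φ.not k v ↔ ¬ Ev φ k v := BoundedFormula.realize_not
theorem ev_and : Ev (φ.and ψ) k v ↔ Ev φ k v ∧ Ev ψ k v := BoundedFormula.realize_inf
theorem ev_or : Ev (φ.or ψ) k v ↔ Ev φ k v ∨ Ev ψ k v := BoundedFormula.realize_sup
theorem ev_imp : Ev (φ.imp ψ) k v ↔ (Ev φ k v → Ev ψ k v) := BoundedFormula.realize_imp
theorem ev_iff : Ev (φ.iff ψ) k v ↔ (Ev φ k v ↔ Ev ψ k v) := BoundedFormula.realize_iff

omit [LSet.Structure M] in
theorem snoc_eq (a : M) : (Fin.snoc (fun i : Fin k => v i) a : Fin (k + 1) → M) =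
    fun i : Fin (k + 1) => update v k a i := by
  funext i
  refine Fin.lastCases ?_ (fun j => ?_) i
  · simp
  · simp [update_of_ne j.2.ne]

theorem ev_all {χ : ℕ → F} : Ev (all χ) k v ↔ ∀ a, Ev (χ k) (k + 1) (update v k a) := by
  unfold Ev all
  simp only [BoundedFormula.realize_all, snoc_eq]

theorem ev_ex {χ : ℕ → F} : Ev (ex χ) k v ↔ ∃ a, Ev (χ k) (k + 1) (update v k a) := by
  unfold Ev ex
  simp only [BoundedFormula.realize_ex, snoc_eq]

theorem ev_sub (hx : x < k) (hy : y < k) : Ev (sub x y) k v ↔ Sub (el M) (v x) (v y) := by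
  simp (disch := omega) only [sub, ev_all, ev_imp, ev_mem, update_self, update_of_ne]
  rfl

theorem ev_suc (hx : x < k) (hy : y < k) : Ev (suc x y) k v ↔ Suc (el M) (v x) (v y) := by
  simp (disch := omega) only [suc, ev_all, ev_iff, ev_or, ev_mem, ev_eq, update_self, update_of_ne]
  rfl

theorem ev_ind (hx : x < k) : Ev (ind x) k v ↔ Ind (el M) (v x) := by
  simp (disch := omega) only [ind, ev_all, ev_ex, ev_and, ev_imp, ev_not, ev_mem, ev_suc,
    update_self, update_of_ne]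
  rfl

theorem ev_omega (hx : x < k) : Ev (omega x) k v ↔ Om (el M) (v x) := by
  simp (disch := omega) only [omega, ev_all, ev_and, ev_imp, ev_ind, ev_sub, update_self,
    update_of_ne]
  rfl

theorem ev_upair (hp : p < k) (hx : x < k) (hy : y < k) :
    Ev (upair p x y) k v ↔ IsUPair (el M) (v p) (v x) (v y) := by
  simp (disch := omega) only [upair, ev_all, ev_iff, ev_or, ev_mem, ev_eq, update_self,
    update_of_ne]
  rfl

theorem ev_opair (hp : p < k) (hx : x < k) (hy : y < k) :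
    Ev (opair p x y) k v ↔ IsOPair (el M) (v p) (v x) (v y) := by
  simp (disch := omega) only [opair, ev_ex, ev_and, ev_upair, update_self, update_of_ne]
  rfl

theorem ev_ap (hf : f < k) (hx : x < k) (hy : y < k) :
    Ev (ap f x y) k v ↔ PairMem (el M) (v x) (v y) (v f) := by
  simp (disch := omega) only [ap, ev_ex, ev_and, ev_opair, ev_mem, update_self, update_of_ne]
  rfl

theorem ev_func (hf : f < k) (hx : x < k) (hy : y < k) :
    Ev (func f x y) k v ↔ IsFunction (el M) (v f) (v x) (v y) := by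
  simp (disch := omega) only [func, ev_all, ev_ex, ev_and, ev_imp, ev_opair, ev_ap, ev_mem, ev_eq,
    update_self, update_of_ne]
  exact ⟨fun h => ⟨h.1, h.2⟩, fun h => ⟨h.1, h.2⟩⟩

theorem ev_surj (hf : f < k) (hx : x < k) (hy : y < k) :
    Ev (surj f x y) k v ↔ IsSurjection (el M) (v f) (v x) (v y) := by
  simp (disch := omega) only [surj, ev_all, ev_ex, ev_and, ev_imp, ev_func, ev_ap, ev_mem,
    update_self, update_of_ne]
  rfl

theorem ev_inj (hf : f < k) (hx : x < k) (hy : y < k) :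
    Ev (inj f x y) k v ↔ IsInjection (el M) (v f) (v x) (v y) := by
  simp (disch := omega) only [inj, ev_all, ev_and, ev_imp, ev_func, ev_ap, ev_eq,
    update_self, update_of_ne]
  rfl

theorem ev_ord (hx : x < k) : Ev (ord x) k v ↔ Ord (el M) (v x) := by
  simp (disch := omega) only [ord, ev_all, ev_and, ev_imp, ev_or, ev_sub, ev_mem, ev_eq,
    update_self, update_of_ne]
  rfl

theorem ev_choice (hx : x < k) : Ev (choice x) k v ↔ Choice (el M) (v x) := by
  simp (disch := omega) only [choice, ev_all, ev_ex, ev_and, ev_imp, ev_func, ev_ap, ev_mem,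
    update_self, update_of_ne]
  rfl

omit [LSet.Structure M] in
theorem snoc_lt {n : ℕ} {r : Fin n → ℕ} (hr : ∀ i, r i < k) (hx : x < k) (i : Fin (n + 1)) :
    (Fin.snoc r x : Fin (n + 1) → ℕ) i < k := by
  refine Fin.lastCases ?_ (fun j => ?_) i <;> simp [hr, hx]

omit [LSet.Structure M] in
theorem comp_snoc {n : ℕ} (r : Fin n → ℕ) :
    (fun i => v ((Fin.snoc r x : Fin (n + 1) → ℕ) i)) =
      (Fin.snoc (fun i => v (r i)) (v x) : Fin (n + 1) → M) := by
  funext i
  refine Fin.lastCases ?_ (fun j => ?_) i <;> simp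

theorem realize_alls [Nonempty M] {n : ℕ} : M ⊨ (φ n).alls ↔ ∀ v : ℕ → M, Ev φ n v := by
  rw [Sentence.Realize, BoundedFormula.realize_alls]
  refine ⟨fun h v => h _, fun h w => ?_⟩
  have := h fun i => if hi : i < n then w ⟨i, hi⟩ else Classical.arbitrary M
  simpa only [Ev, Fin.is_lt, dif_pos] using this

theorem ev_inst1 {n : ℕ} {χ : LSet.Formula (Fin (n + 1))} (hn : n ≤ k) (hx : x < k) :
    Ev (inst χ (Fin.snoc Fin.val x)) k v ↔
      χ.Realize (Fin.snoc (fun i : Fin n => v i) (v x) : Fin (n + 1) → M) := by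
  rw [ev_inst (snoc_lt (fun i => i.2.trans_le hn) hx), comp_snoc]

theorem ev_inst2 {n : ℕ} {χ : LSet.Formula (Fin (n + 2))} (hn : n ≤ k) (hx : x < k) (hy : y < k) :
    Ev (inst χ (Fin.snoc (Fin.snoc Fin.val x) y)) k v ↔ χ.Realize (Fin.snoc
      (Fin.snoc (fun i : Fin n => v i) (v x) : Fin (n + 1) → M) (v y) : Fin (n + 2) → M) := by
  rw [ev_inst (snoc_lt (snoc_lt (fun i => i.2.trans_le hn) hx) hy), comp_snoc, comp_snoc]

theorem ev_sep {n : ℕ} (χ : LSet.Formula (Fin (n + 1))) : Ev (sep χ) n v ↔ ∀ a, ∃ b, ∀ x,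
    el M x b ↔ el M x a ∧ χ.Realize (Fin.snoc (fun i : Fin n => v i) x : Fin (n + 1) → M) := by
  simp (disch := omega) only [sep, ev_all, ev_ex, ev_and, ev_iff, ev_mem, ev_inst1,
    update_self, update_of_ne]

theorem ev_rep {n : ℕ} (χ : LSet.Formula (Fin (n + 2))) : Ev (rep χ) n v ↔ ∀ a,
    (∀ x, el M x a → ∃! y, χ.Realize (Fin.snoc
      (Fin.snoc (fun i : Fin n => v i) x : Fin (n + 1) → M) y : Fin (n + 2) → M)) →
    ∃ b, ∀ y, el M y b ↔ ∃ x, el M x a ∧ χ.Realize (Fin.snoc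
      (Fin.snoc (fun i : Fin n => v i) x : Fin (n + 1) → M) y : Fin (n + 2) → M) := by
  simp (disch := omega) only [rep, ev_all, ev_ex, ev_and, ev_iff, ev_imp, ev_mem, ev_eq, ev_inst2,
    update_self, update_of_ne]
  rfl

theorem exists_bf {n : ℕ} (χ : LSet.Formula (Fin n)) :
    ∃ ψ : LSet.BoundedFormula Empty n, ∀ w : Fin n → M, Sat (el M) ψ w ↔ χ.Realize w :=
  ⟨BoundedFormula.relabel (n := n) (k := 0) Sum.inr χ, fun w => by
    rw [sat_iff]
    exact Formula.realize_relabel_sumInr _⟩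

theorem exists_fm {n : ℕ} (ψ : LSet.BoundedFormula Empty n) :
    ∃ χ : LSet.Formula (Fin n), ∀ w : Fin n → M, Sat (el M) ψ w ↔ χ.Realize w := by
  refine ⟨ψ.toFormula.relabel (Sum.elim Empty.elim id), fun w => ?_⟩
  rw [sat_iff, Formula.realize_relabel, BoundedFormula.realize_toFormula]
  exact iff_of_eq (congrArg₂ _ (funext fun i => i.elim) rfl)

variable [Nonempty M]

/-- The models of the theory `ZF`. -/
theorem models_iff : M ⊨ ZF ↔ IsZFModel (el M) := by
  obtain ⟨v⟩ : Nonempty (ℕ → M) := inferInstance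
  have e1 : M ⊨ ext 0 ↔ ∀ x y, (∀ z, el M z x ↔ el M z y) → x = y := by
    simp (disch := omega) only [ev_zero v, ext, ev_all, ev_imp, ev_iff, ev_mem, ev_eq,
      update_self, update_of_ne]
  have e2 : M ⊨ fnd 0 ↔ ∀ x, (∃ y, el M y x) → ∃ y, el M y x ∧ ∀ z, el M z x → ¬ el M z y := by
    simp (disch := omega) only [ev_zero v, fnd, ev_all, ev_ex, ev_imp, ev_and, ev_not, ev_mem,
      update_self, update_of_ne]
  have e3 : M ⊨ pair 0 ↔ ∀ x y, ∃ p, IsUPair (el M) p x y := by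
    simp (disch := omega) only [ev_zero v, pair, ev_all, ev_ex, ev_upair,
      update_self, update_of_ne]
  have e4 : M ⊨ uni 0 ↔ ∀ x, ∃ u, ∀ z, el M z u ↔ ∃ y, el M y x ∧ el M z y := by
    simp (disch := omega) only [ev_zero v, uni, ev_all, ev_ex, ev_iff, ev_and, ev_mem,
      update_self, update_of_ne]
  have e5 : M ⊨ pow 0 ↔ ∀ x, ∃ p, ∀ z, el M z p ↔ Sub (el M) z x := by
    simp (disch := omega) only [ev_zero v, pow, ev_all, ev_ex, ev_iff, ev_mem, ev_sub,
      update_self, update_of_ne]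
  have e6 : M ⊨ inf 0 ↔ ∃ w, Ind (el M) w := by
    simp (disch := omega) only [ev_zero v, inf, ev_ex, ev_ind, update_self]
  have e7 : ∀ {n : ℕ} (w : Fin n → M), ∃ v : ℕ → M, (fun i : Fin n => v i) = w := fun {n} w =>
    ⟨fun i => if hi : i < n then w ⟨i, hi⟩ else v i, funext fun i => dif_pos i.2⟩
  rw [Theory.model_iff]
  constructor
  · intro h
    refine ⟨e1.1 (h _ (by simp [ZF])), e2.1 (h _ (by simp [ZF])), e3.1 (h _ (by simp [ZF])),
      e4.1 (h _ (by simp [ZF])), e5.1 (h _ (by simp [ZF])), e6.1 (h _ (by simp [ZF])),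
      fun n ψ w a => ?_, fun n ψ w a => ?_⟩
    · obtain ⟨χ, hχ⟩ := exists_fm (M := M) ψ
      obtain ⟨v, rfl⟩ := e7 w
      simpa only [hχ] using
        (ev_sep χ).1 (realize_alls.1 (h _ (Or.inl (Or.inr ⟨n, χ, rfl⟩))) v) a
    · obtain ⟨χ, hχ⟩ := exists_fm (M := M) ψ
      obtain ⟨v, rfl⟩ := e7 w
      simpa only [hχ] using (ev_rep χ).1 (realize_alls.1 (h _ (Or.inr ⟨n, χ, rfl⟩)) v) a
  · rintro h ψ ((hψ | ⟨n, χ, rfl⟩) | ⟨n, χ, rfl⟩)
    · rcases hψ with rfl | rfl | rfl | rfl | rfl | rfl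
      exacts [e1.2 h.1, e2.2 h.2, e3.2 h.3, e4.2 h.4, e5.2 h.5, e6.2 h.6]
    · obtain ⟨ψ, hψ⟩ := exists_bf (M := M) χ
      refine realize_alls.2 fun v => (ev_sep χ).2 fun a => ?_
      simpa only [hψ] using h.separation n ψ _ a
    · obtain ⟨ψ, hψ⟩ := exists_bf (M := M) χ
      refine realize_alls.2 fun v => (ev_rep χ).2 fun a => ?_
      simpa only [hψ] using h.replacement n ψ _ a

theorem realize_pp : M ⊨ pp 0 ↔ PP (el M) := by
  obtain ⟨v⟩ : Nonempty (ℕ → M) := inferInstance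
  simp (disch := omega) only [ev_zero v, pp, ev_all, ev_ex, ev_imp, ev_surj, ev_inj,
    update_self, update_of_ne]
  rfl

theorem realize_ac : M ⊨ ac 0 ↔ ∀ I, Choice (el M) I := by
  obtain ⟨v⟩ : Nonempty (ℕ → M) := inferInstance
  simp (disch := omega) only [ev_zero v, ac, ev_all, ev_choice, update_self]

theorem realize_acwo : M ⊨ acwo 0 ↔ ∀ I, Ord (el M) I → Choice (el M) I := by
  obtain ⟨v⟩ : Nonempty (ℕ → M) := inferInstance
  simp (disch := omega) only [ev_zero v, acwo, ev_all, ev_imp, ev_ord, ev_choice, update_self]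

theorem realize_part : M ⊨ part 0 ↔ ∀ X P,
    (∀ A, el M A P → (∃ x, el M x A) ∧ Sub (el M) A X) →
    (∀ x, el M x X → ∃ A, (el M A P ∧ el M x A) ∧ ∀ B, el M B P → el M x B → B = A) →
    ∃ j, IsInjection (el M) j P X := by
  obtain ⟨v⟩ : Nonempty (ℕ → M) := inferInstance
  simp (disch := omega) only [ev_zero v, part, ev_all, ev_ex, ev_imp, ev_and, ev_mem, ev_eq,
    ev_sub, ev_inj, update_self, update_of_ne]

theorem realize_dc : M ⊨ dc 0 ↔ ∀ w A R, Om (el M) w → (∃ x, el M x A) →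
    (∀ x, el M x A → ∃ y, el M y A ∧ PairMem (el M) x y R) → ∃ f, IsFunction (el M) f w A ∧
      ∀ n m x y, Suc (el M) m n → PairMem (el M) n x f → PairMem (el M) m y f →
        PairMem (el M) x y R := by
  obtain ⟨v⟩ : Nonempty (ℕ → M) := inferInstance
  simp (disch := omega) only [ev_zero v, dc, ev_all, ev_ex, ev_imp, ev_and, ev_mem, ev_omega,
    ev_suc, ev_ap, ev_func, update_self, update_of_ne]

theorem realize_csb : M ⊨ csb 0 ↔ ∀ X Y, (∃ f, IsSurjection (el M) f X Y) →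
    (∃ f, IsSurjection (el M) f Y X) →
    ∃ h, IsInjection (el M) h X Y ∧ IsSurjection (el M) h X Y := by
  obtain ⟨v⟩ : Nonempty (ℕ → M) := inferInstance
  simp (disch := omega) only [ev_zero v, csb, ev_all, ev_ex, ev_imp, ev_and, ev_surj, ev_inj,
    update_self, update_of_ne]

theorem realize_svc : M ⊨ svc 0 ↔ ∃ κ, Ord (el M) κ ∧ ∀ A, ∃ η Y j,
    Ord (el M) η ∧ IsInjection (el M) j A Y ∧ ∀ p, el M p Y → ∃ ξ s,
      IsOPair (el M) p ξ s ∧ el M ξ η ∧ Sub (el M) s κ := by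
  obtain ⟨v⟩ : Nonempty (ℕ → M) := inferInstance
  simp (disch := omega) only [ev_zero v, svc, ev_all, ev_ex, ev_imp, ev_and, ev_mem, ev_ord,
    ev_opair, ev_sub, ev_inj, update_self, update_of_ne]

theorem realize_kw : M ⊨ kw 0 ↔ ∀ A, ∃ η P i,
    Ord (el M) η ∧ (∀ s, el M s P ↔ Sub (el M) s η) ∧ IsInjection (el M) i A P := by
  obtain ⟨v⟩ : Nonempty (ℕ → M) := inferInstance
  simp (disch := omega) only [ev_zero v, kw, ev_all, ev_ex, ev_iff, ev_and, ev_mem, ev_ord,
    ev_sub, ev_inj, update_self, update_of_ne]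

theorem realize_lin : M ⊨ lin 0 ↔ ∀ A, ∃ R, (∀ x, ¬ PairMem (el M) x x R) ∧
    (∀ x y z, PairMem (el M) x y R → PairMem (el M) y z R → PairMem (el M) x z R) ∧
    ∀ x y, el M x A → el M y A → PairMem (el M) x y R ∨ x = y ∨ PairMem (el M) y x R := by
  obtain ⟨v⟩ : Nonempty (ℕ → M) := inferInstance
  simp (disch := omega) only [ev_zero v, lin, ev_all, ev_ex, ev_imp, ev_and, ev_or, ev_not,
    ev_mem, ev_eq, ev_ap, update_self, update_of_ne]

end Vale.Agent.N323C.S
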