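import Vale.Agent.N323C.FSent
import Vale.Agent.N323C.Logic
import Vale.Agent.N323C.Cons
import Vale.Agent.N323.Gen
import Vale.Agent.N323.Collapse

/-!
# A countable transitive model of ZF, PP, not AC and further principles (helper28)
-/

namespace Vale.Agent.N323C

open CategoryTheory FirstOrder FirstOrder.Language Vale.Agent.P323.Z Vale.Agent.P323.F S

/-- A countable well-founded structure in which all valid formulas hold. -/
theorem exists_wf : ∃ (M : Type) (E : M → M → Prop), Countable M ∧ WellFounded E ∧ IsZFModel E ∧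
    PP E ∧ ¬ AC E ∧ svcF.Sat E ![] := by
  obtain ⟨D, _, ⟨tw⟩⟩ := P323.H709.exists_tower
  let _ := tw
  have X0 : CObj D := P323.H341.Z1
  obtain ⟨M, E, -, -, hM, wf, hV, -⟩ :=
    N323.exists_wf_model (N323.smallDec D) X0 ∅ Set.countable_empty
  have hZ : ZFNames (atomicOf (CObj D)) := zfNames _
  have := ckOrd (CObj D)
  refine ⟨M, E, hM, wf, isZFModel_of_valid hZ hV, ?_, ?_, hV 0 _ (valid_svcF (opPair _)) _⟩
  · exact (Fml.sat_ppF _ ![]).1 (hV 0 Fml.ppF (valid_ppF (opPair _) (ppForced D)) ![])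
  · have := hV 0 (Fml.neg Fml.acF) (valid_neg_acF (opPair _) (P323.H341.noAC D)) ![]
    rwa [Fml.sat_neg, Fml.sat_acF] at this

theorem models_of {M : Type} (R : M → M → Prop) (hZ : IsZFModel R) (hPP : PP R) (hAC : ¬ AC R)
    (hS : svcF.Sat R ![]) :
    letI := memStructure R
    M ⊨ Th := by
  let _ := memStructure R
  let _ : ZM M := ⟨R, hZ⟩
  have : Nonempty M := ne_M
  obtain ⟨κ, hκ, hS⟩ := (sat_svcF R _).1 hS
  have hkw : ∀ A : M, ∃ η P i, Ord E η ∧ (∀ s, E s P ↔ Sub E s η) ∧ IsInjection E i A P := by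
    intro A
    obtain ⟨η, Y, f, h1, h2, h3, h4⟩ := hS A
    obtain ⟨j, hj⟩ := hPP Y A ⟨f, h3⟩
    obtain ⟨P, i, h5, h6⟩ := kw_of h2 hj h4
    exact ⟨η, P, i, h1, h5, h6⟩
  refine Theory.Model.union (models_iff.2 hZ) ((Theory.model_iff _).2 ?_)
  rintro ψ (rfl | rfl | rfl | rfl | rfl | rfl | rfl | rfl | rfl)
  · exact realize_pp.2 hPP
  · exact (Sentence.realize_not M).2 fun h => hAC (ac_of_choice (realize_ac.1 h))
  · exact realize_acwo.2 fun I hI => choice_of_pp hPP hI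
  · exact realize_part.2 fun X P h h' =>
      part_of_pp hPP X P (fun A hA => (h A hA).1) (fun A hA => (h A hA).2) h'
  · exact realize_dc.2 (dc_of_choice fun I hI => choice_of_pp hPP hI)
  · refine realize_csb.2 fun X Y h h' => ?_
    obtain ⟨f, hf⟩ := hPP Y X h'
    obtain ⟨g, hg⟩ := hPP X Y h
    exact cantor_bernstein hf hg
  · refine realize_svc.2 ⟨κ, hκ, fun A => ?_⟩
    obtain ⟨η, Y, f, h1, -, h3, h4⟩ := hS A
    obtain ⟨j, hj⟩ := hPP Y A ⟨f, h3⟩
    refine ⟨η, Y, j, h1, hj, fun p hp => ?_⟩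
    obtain ⟨ξ, s, h5, h6, -, h7⟩ := h4 p hp
    exact ⟨ξ, s, h5, h6, h7⟩
  · exact realize_kw.2 hkw
  · refine realize_lin.2 fun A => ?_
    obtain ⟨η, P, i, h1, h2, h3⟩ := hkw A
    exact lin_of h1 h2 h3

theorem exists_transitive : ∃ T : ZFSet.{0}, (T : Set ZFSet.{0}).Countable ∧ T.IsTransitive ∧
    Nonempty T ∧
    letI := memStructure fun x y : T => x.1 ∈ y.1
    T ⊨ Th := by
  obtain ⟨M, R, hM, wf, hZ, hPP, hAC, hS⟩ := exists_wf
  obtain ⟨π, hπi, hπ⟩ := N323.exists_collapse R wf hZ.extensionality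
  have hE : ∀ x y, π x ∈ π y ↔ R x y := fun x y =>
    ⟨fun h => by
      obtain ⟨z, h1, h2⟩ := (hπ y _).1 h
      rwa [← hπi h2], fun h => (hπ y _).2 ⟨x, h, rfl⟩⟩
  obtain ⟨w, -⟩ := hZ.infinity
  refine ⟨ZFSet.range π, ?_, fun t ht z hz => ?_, ⟨⟨π w, ZFSet.mem_range_self w⟩⟩, ?_⟩
  · rw [ZFSet.coe_range]
    exact Set.countable_range π
  · obtain ⟨x, rfl⟩ := ZFSet.mem_range.1 ht
    obtain ⟨y, -, rfl⟩ := (hπ x z).1 hz
    exact ZFSet.mem_range_self y
  · let _ := memStructure R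
    let _ := memStructure fun x y : (ZFSet.range π : ZFSet.{0}) => x.1 ∈ y.1
    have := models_of R hZ hPP hAC hS
    let e : M ≃ (ZFSet.range π : ZFSet.{0}) :=
      Equiv.ofBijective (fun x => ⟨π x, ZFSet.mem_range_self x⟩)
        ⟨fun x y h => hπi (congrArg Subtype.val h), by
          rintro ⟨t, ht⟩
          obtain ⟨x, rfl⟩ := ZFSet.mem_range.1 ht
          exact ⟨x, rfl⟩⟩
    let g : M ≃[LSet] (ZFSet.range π : ZFSet.{0}) :=
      { e with
        map_fun' := fun f => (f : Empty).elim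
        map_rel' := fun r x => by
          cases r
          exact hE _ _ }
    exact StrongHomClass.theory_model g

theorem main : ¬ ZF ⊨ᵇ pp 0 ⟹ ac 0 ∧ Th.IsSatisfiable ∧
    ∃ T : ZFSet.{0}, (T : Set ZFSet.{0}).Countable ∧ T.IsTransitive ∧
      letI := memStructure fun x y : T => x.1 ∈ y.1
      T ⊨ Th := by
  obtain ⟨T, h1, h2, h3, h4⟩ := exists_transitive
  let _ := memStructure fun x y : T => x.1 ∈ y.1
  refine ⟨fun h => ?_, Theory.Model.isSatisfiable T, T, h1, h2, h4⟩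
  have h5 : T ⊨ ZF := h4.mono Set.subset_union_left
  have h6 : T ⊨ pp 0 := h4.realize_of_mem _ (Or.inr (Or.inl rfl))
  have h7 : T ⊨ ∼(ac 0) := h4.realize_of_mem _ (Or.inr (Or.inr (Or.inl rfl)))
  exact (Sentence.realize_not T).1 h7 ((Sentence.realize_imp T).1 (h.realize_sentence T) h6)

end Vale.Agent.N323C
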