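import Vale.Agent.N323C.Ord

/-!
# PP implies choice for well-ordered families (the argument of Pincus), in every model of ZF
-/

namespace Vale.Agent.N323C

open Vale.Agent.P323.Z

/-- Every family of nonempty sets with index set `I` has a choice function. -/
def Choice {M : Type*} (E : M → M → Prop) (I : M) : Prop :=
  ∀ F U, IsFunction E F I U → (∀ i y, PairMem E i y F → ∃ x, E x y) →
    ∃ c V, IsFunction E c I V ∧ ∀ i y x, PairMem E i y F → PairMem E i x c → E x y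

variable {M : Type} [ZM M] {α : Type}

/-- `μ` contains `ν`, and `B × ν` is not mapped onto `μ` -/
def Big (B μ ν : M) : Prop := Sub E ν μ ∧
  ¬ ∃ j, Dis j ∧ ∀ x, E x μ → ∃ c l, E c B ∧ E l ν ∧ E (op x (op c l)) j

instance Df.big (t s r : (α → M) → M) [Tm t] [Tm s] [Tm r] :
    Df fun v => Big (t v) (s v) (r v) :=
  Df.app3 Big (by unfold Big; infer_instance) t s r

theorem Big.mono {B μ ν ν' : M} (h : Big B μ ν') (h' : Sub E ν ν') : Big B μ ν :=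
  ⟨fun z hz => h.1 z (h' z hz), fun ⟨j, h1, h2⟩ => h.2 ⟨j, h1, fun x hx => by
    obtain ⟨c, l, h3, h4, h5⟩ := h2 x hx
    exact ⟨c, l, h3, h' l h4, h5⟩⟩⟩

theorem exists_big (B : M) {ν : M} (hν : Ord E ν) : ∃ μ, Ord E μ ∧ Big B μ ν := by
  obtain ⟨Z, hZ⟩ := prod B ν
  obtain ⟨a, ha, h⟩ := lindenbaum Z
  have key : ∀ μ, Sub E a μ → Sub E ν μ → Big B μ ν := fun μ h1 h2 =>
    ⟨h2, fun ⟨j, h3, h4⟩ => h ⟨j, h3, fun x hx => by
      obtain ⟨c, l, h5, h6, h7⟩ := h4 x (h1 x hx)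
      exact ⟨_, (hZ _).2 ⟨c, l, h5, h6, rfl⟩, h7⟩⟩⟩
  by_cases h1 : E a ν
  · exact ⟨ν, hν, key ν (hν.1 a h1) fun _ h => h⟩
  · exact ⟨a, ha, key a (fun _ h => h) (hν.sub_of_not ha h1)⟩

/-- `μ` is a value at `β` of a fast growing sequence of ordinals -/
def Seq (B β μ : M) : Prop := ∃ g, (∀ δ, E δ β → ∃ ν, E (op δ ν) g) ∧
  (∀ δ ν, E (op δ ν) g → Ord E ν) ∧
  (∀ γ δ ν ν', E γ δ → E (op γ ν) g → E (op δ ν') g → Big B ν' ν) ∧ E (op β μ) g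

instance Df.seq (t s r : (α → M) → M) [Tm t] [Tm s] [Tm r] :
    Df fun v => Seq (t v) (s v) (r v) :=
  Df.app3 Seq (by unfold Seq; infer_instance) t s r

theorem Seq.ord {B β μ : M} (h : Seq B β μ) : Ord E μ := by
  obtain ⟨g, -, h1, -, h2⟩ := h
  exact h1 _ _ h2

theorem Seq.big {B β μ γ ν : M} (hβ : Ord E β) (h : Seq B β μ) (hγ : E γ β) (h' : Seq B γ ν)
    (hm : ∀ z, E z ν → ¬ Seq B γ z) : Big B μ ν := by
  obtain ⟨g, h1, h2, h3, h4⟩ := h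
  obtain ⟨ν', h5⟩ := h1 γ hγ
  exact (h3 γ β ν' μ hγ h5 h4).mono (h'.ord.sub_of_not (h2 _ _ h5) fun h6 =>
    hm ν' h6 ⟨g, fun δ hδ => h1 δ (hβ.1 γ hγ δ hδ), h2, h3, h5⟩)

theorem exists_seq (B : M) : ∀ β, Ord E β → ∃ μ, Seq B β μ := by
  refine ordInd (fun β => ∃ μ, Seq B β μ) fun β hβ ih => ?_
  obtain ⟨R, hR⟩ := rep (fun γ ν => Seq B γ ν ∧ ∀ z, E z ν → ¬ Seq B γ z) β (by
    rintro γ - ν ν' ⟨h1, h2⟩ ⟨h3, h4⟩
    rcases h1.ord.tri h3.ord with h | h | h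
    · exact (h4 ν h h1).elim
    · exact h
    · exact (h2 ν' h h3).elim)
  obtain ⟨σ, hσ⟩ := uni R
  obtain ⟨μ, h1, h2⟩ := exists_big B (ord_uni hσ fun ν hν => by
    obtain ⟨γ, -, h, -⟩ := (hR ν).1 hν
    exact h.ord)
  obtain ⟨β', hβ'⟩ := ins β β
  obtain ⟨R', hR'⟩ := ins μ R
  obtain ⟨g, -, hg⟩ := rel (fun γ ν => (E γ β ∧ Seq B γ ν ∧ ∀ z, E z ν → ¬ Seq B γ z) ∨
    (γ = β ∧ ν = μ)) β' R'
  refine ⟨μ, g, fun γ hγ => ?_, fun γ ν h => ?_, fun γ δ ν ν' h3 h4 h5 => ?_, ?_⟩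
  · obtain ⟨ν, hν⟩ := ih γ hγ
    obtain ⟨ν', h3⟩ := ord_min (fun ν => Seq B γ ν) hν.ord hν
    exact ⟨ν', (hg _ _).2 ⟨(hβ' γ).2 (Or.inl hγ), (hR' _).2 (Or.inl ((hR _).2 ⟨γ, hγ, h3⟩)),
      Or.inl ⟨hγ, h3⟩⟩⟩
  · rcases ((hg _ _).1 h).2.2 with h | ⟨-, rfl⟩
    · exact h.2.1.ord
    · exact h1
  · rcases ((hg _ _).1 h4).2.2 with ⟨h6, h7, h8⟩ | ⟨rfl, -⟩
    · rcases ((hg _ _).1 h5).2.2 with ⟨h9, h10, -⟩ | ⟨rfl, rfl⟩
      · exact h10.big (hβ.mem h9) h3 h7 h8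
      · exact h2.mono fun z hz => (hσ z).2 ⟨ν, (hR ν).2 ⟨γ, h6, h7, h8⟩, hz⟩
    · rcases ((hg _ _).1 h5).2.2 with ⟨h9, -⟩ | ⟨rfl, -⟩
      · exact (asym h3 h9).elim
      · exact (irr _ h3).elim
  · exact (hg _ _).2 ⟨(hβ' β).2 (Or.inr rfl), (hR' _).2 (Or.inr rfl), Or.inr ⟨rfl, rfl⟩⟩

theorem IsInjection.dis {j a b : M} (h : IsInjection E j a b) : Dis j :=
  fun x x' y h1 h2 => h.2 x x' y (pairMem_iff.2 h1) (pairMem_iff.2 h2)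

/-- The gluing step: functions in `B` whose domains exhaust a limit ordinal `β` are glued. -/
theorem glue (hPP : PP (E (M := M))) {B β : M} (hβ : Ord E β)
    (hl : ∀ γ, E γ β → ∃ δ, E δ β ∧ E γ δ)
    (hB : ∀ γ, E γ β → ∃ c, E c B ∧ ∀ i, E i γ → ∃ x, E (op i x) c) :
    ∃ μ j, Ord E μ ∧ (∀ ξ y, E (op ξ y) j → E ξ μ) ∧
      (∀ ξ y y', E (op ξ y) j → E (op ξ y') j → y = y') ∧
      (∀ ξ c l, E (op ξ (op c l)) j → E c B) ∧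
      ∀ i, E i β → ∃ ξ c l x, E (op ξ (op c l)) j ∧ E (op i x) c := by
  obtain ⟨μ₀, g, h1, h2, h3, -⟩ := exists_seq B β hβ
  obtain ⟨u, hu⟩ := uni g
  obtain ⟨w, hw⟩ := uni u
  obtain ⟨R, hR⟩ := sep (fun ν => ∃ δ, E δ β ∧ E (op δ ν) g) w
  have hR' : ∀ δ ν, E δ β → E (op δ ν) g → E ν R := fun δ ν h4 h5 => by
    obtain ⟨s, t, -, ht, hp⟩ := isOPair_iff.2 (rfl : op δ ν = op δ ν)
    exact (hR ν).2 ⟨(hw ν).2 ⟨t, (hu t).2 ⟨_, h5, (hp t).2 (Or.inr rfl)⟩, (ht ν).2 (Or.inr rfl)⟩,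
      δ, h4, h5⟩
  obtain ⟨μ, hμ⟩ := uni R
  obtain ⟨Y, hY, hY'⟩ := rel (fun c l => ∀ i ν, E i β → E (op i ν) g →
    (∃ x, E (op i x) c) ∨ E l ν) B μ
  obtain ⟨f, hf, hf'⟩ := mkFun (fun p l => ∃ c, p = op c l) Y μ
    (fun p hp => by
      obtain ⟨c, l, -, h4, h5⟩ := hY p hp
      exact ⟨l, h4, c, h5⟩)
    (by
      rintro p l l' - - - ⟨c, rfl⟩ ⟨c', h⟩
      exact (op_inj h).2)
  obtain ⟨j, hj⟩ := hPP Y μ ⟨f, hf, fun l hl => by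
    obtain ⟨ν₀, h4, h5⟩ := (hμ l).1 hl
    obtain ⟨-, γ, h6, h7⟩ := (hR ν₀).1 h4
    obtain ⟨δ, h8, h9⟩ := ‹∀ γ, E γ β → ∃ δ, E δ β ∧ E γ δ› γ h6
    obtain ⟨c, h10, h11⟩ := hB δ h8
    have h12 : E (op c l) Y := (hY' c l).2 ⟨h10, hl, fun i ν hi hν => by
      rcases hβ.2 i γ hi h6 with h | rfl | h
      · exact Or.inl (h11 i ((hβ.mem h8).1 γ h9 i h))
      · exact Or.inl (h11 i h9)
      · exact Or.inr ((h3 γ i ν₀ ν h h7 hν).1 l h5)⟩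
    exact ⟨op c l, h12, pairMem_iff.2 ((hf' _ _).2 ⟨h12, hl, c, rfl⟩)⟩⟩
  refine ⟨μ, j, ord_uni hμ fun ν hν => ?_, fun ξ y h => (IsFunction.dom hj.1 h).1,
    fun ξ y y' => IsFunction.fn hj.1,
    fun ξ c l h => ((hY' c l).1 (IsFunction.dom hj.1 h).2).1, fun i hi => ?_⟩
  · obtain ⟨-, γ, -, h⟩ := (hR ν).1 hν
    exact h2 _ _ h
  · by_contra hc
    obtain ⟨δ, h4, h5⟩ := hl i hi
    obtain ⟨ν, h6⟩ := h1 i hi
    obtain ⟨ν', h7⟩ := h1 δ h4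
    refine (h3 i δ ν ν' h5 h6 h7).2 ⟨j, IsInjection.dis hj, fun ξ hξ => ?_⟩
    obtain ⟨p, hp⟩ := IsFunction.tot hj.1 ((hμ ξ).2 ⟨ν', hR' δ ν' h4 h7, hξ⟩)
    have h8 := (IsFunction.dom hj.1 hp).2
    obtain ⟨c, l, h9, -, rfl⟩ := hY p h8
    refine ⟨c, l, h9, (((hY' c l).1 h8).2.2 i ν hi h6).resolve_left ?_, hp⟩
    rintro ⟨x, hx⟩
    exact hc ⟨ξ, c, l, x, hp, hx⟩

/-- **Pincus**: PP implies choice for families indexed by an ordinal. -/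
theorem choice_of_pp (hPP : PP (E (M := M))) {η : M} (hη : Ord E η) : Choice E η := by
  intro F U hF hne
  simp only [pairMem_iff] at hne ⊢
  obtain ⟨V, hV⟩ := uni U
  obtain ⟨Q, hQ⟩ := prod η V
  obtain ⟨P, hP⟩ := pow Q
  obtain ⟨B, hB⟩ := sep (fun c => (∀ i x x', E (op i x) c → E (op i x') c → x = x') ∧
    ∀ i x, E (op i x) c → ∃ y, E (op i y) F ∧ E x y) P
  have hin : ∀ i y x, E (op i y) F → E x y → E i η ∧ E x V := fun i y x h1 h2 =>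
    ⟨(IsFunction.dom hF h1).1, (hV x).2 ⟨y, (IsFunction.dom hF h1).2, h2⟩⟩
  have key : ∀ β, Ord E β → Sub E β η → ∃ c, E c B ∧ ∀ i, E i β → ∃ x, E (op i x) c := by
    refine ordInd (fun β => Sub E β η → ∃ c, E c B ∧ ∀ i, E i β → ∃ x, E (op i x) c)
      fun β hβ ih hs => ?_
    have ih' := fun γ hγ => ih γ hγ fun z hz => hs z (hβ.1 γ hγ z hz)
    by_cases hl : ∀ γ, E γ β → ∃ δ, E δ β ∧ E γ δ
    · obtain ⟨μ, j, h1, h2, h3, h4, h5⟩ := glue hPP hβ hl ih'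
      obtain ⟨c, h6, h7⟩ := rel (fun i x => ∃ ξ c l, E (op ξ (op c l)) j ∧ E (op i x) c ∧
        ∀ ξ' c' l' x', E ξ' ξ → E (op ξ' (op c' l')) j → ¬ E (op i x') c') η V
      refine ⟨c, (hB c).2 ⟨(hP c).2 fun p hp => (hQ p).2 (h6 p hp), ?_, ?_⟩, fun i hi => ?_⟩
      · intro i x x' hx hx'
        obtain ⟨-, -, ξ, d, l, h8, h9, h10⟩ := (h7 _ _).1 hx
        obtain ⟨-, -, ξ', d', l', h8', h9', h10'⟩ := (h7 _ _).1 hx'
        rcases h1.2 ξ ξ' (h2 _ _ h8) (h2 _ _ h8') with h | rfl | h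
        · exact (h10' ξ d l x h h8 h9).elim
        · obtain ⟨rfl, -⟩ := op_inj (h3 _ _ _ h8 h8')
          exact ((hB d).1 (h4 _ _ _ h8)).2.1 i x x' h9 h9'
        · exact (h10 ξ' d' l' x' h h8' h9').elim
      · intro i x hx
        obtain ⟨-, -, ξ, d, l, h8, h9, -⟩ := (h7 _ _).1 hx
        exact ((hB d).1 (h4 _ _ _ h8)).2.2 i x h9
      · obtain ⟨ξ, d, l, x, h8, h9⟩ := h5 i hi
        obtain ⟨ξ', -, ⟨d', l', x', h10, h11⟩, h12⟩ := exists_min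
          (fun ξ => ∃ c l x, E (op ξ (op c l)) j ∧ E (op i x) c) (h2 _ _ h8) ⟨d, l, x, h8, h9⟩
        obtain ⟨y, h13, h14⟩ := ((hB d').1 (h4 _ _ _ h10)).2.2 i x' h11
        exact ⟨x', (h7 _ _).2 ⟨hs i hi, (hin i y x' h13 h14).2, ξ', d', l', h10, h11,
          fun ζ e m z h15 h16 h17 => h12 ζ (h2 _ _ h16) ⟨e, m, z, h16, h17⟩ h15⟩⟩
    · simp only [not_forall, not_exists, not_and] at hl
      obtain ⟨γ, hγ, hl⟩ := hl
      obtain ⟨c, h1, h2⟩ := ih' γ hγ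
      have h3 : ∀ i, E i β → E i γ ∨ i = γ := fun i hi => by
        rcases hβ.2 i γ hi hγ with h | h | h
        exacts [Or.inl h, Or.inr h, (hl i hi h).elim]
      by_cases h4 : ∃ x, E (op γ x) c
      · exact ⟨c, h1, fun i hi => (h3 i hi).elim (h2 i) fun h => h ▸ h4⟩
      · obtain ⟨y, hy⟩ := IsFunction.tot hF (hs γ hγ)
        obtain ⟨x, hx⟩ := hne γ y hy
        obtain ⟨c', hc'⟩ := ins (op γ x) c
        obtain ⟨h5, h6, h7⟩ := (hB c).1 h1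
        refine ⟨c', (hB c').2 ⟨(hP c').2 fun p hp => ?_, fun i z z' hz hz' => ?_,
          fun i z hz => ?_⟩, fun i hi => ?_⟩
        · rcases (hc' p).1 hp with h | rfl
          · exact (hP c).1 h5 p h
          · exact (hQ _).2 ⟨γ, x, hs γ hγ, (hin γ y x hy hx).2, rfl⟩
        · rcases (hc' _).1 hz with h | h <;> rcases (hc' _).1 hz' with h' | h'
          · exact h6 i z z' h h'
          · exact (h4 ⟨z, (op_inj h').1 ▸ h⟩).elim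
          · exact (h4 ⟨z', (op_inj h).1 ▸ h'⟩).elim
          · exact (op_inj h).2.trans (op_inj h').2.symm
        · rcases (hc' _).1 hz with h | h
          · exact h7 i z h
          · obtain ⟨rfl, rfl⟩ := op_inj h
            exact ⟨y, hy, hx⟩
        · rcases h3 i hi with h | rfl
          · obtain ⟨z, hz⟩ := h2 i h
            exact ⟨z, (hc' _).2 (Or.inl hz)⟩
          · exact ⟨x, (hc' _).2 (Or.inr rfl)⟩
  obtain ⟨c, h1, h2⟩ := key η hη fun _ h => h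
  obtain ⟨h3, h4, h5⟩ := (hB c).1 h1
  refine ⟨c, V, ⟨fun p hp => ?_, fun i hi => ?_⟩, fun i y x hy hx => ?_⟩
  · simpa only [isOPair_iff] using (hQ p).1 ((hP c).1 h3 p hp)
  · obtain ⟨x, hx⟩ := h2 i hi
    simp only [pairMem_iff]
    exact ⟨x, hx, fun x' hx' => h4 i _ _ hx' hx⟩
  · obtain ⟨y', h6, h7⟩ := h5 i x hx
    rwa [IsFunction.fn hF hy h6]

end Vale.Agent.N323C
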